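import Crest.Agent.DU.Defs

set_option autoImplicit false
open Finset

namespace Crest.Agent.DU

section AbsAux
variable {G Ω ι : Type} [AddCommGroup G]

/-- `z` is captured by every `k`-element set of indices. -/
def absK (H : ι → Ω → AddSubgroup G) (Y : Finset Ω) (k : ℕ) (z : G) : Prop :=
  ∀ B : Finset ι, B.card = k → ∃ x : ι → Ω, (∀ a, x a ∈ Y) ∧ z ∈ ⨆ a ∈ B, H a (x a)

/-- The set whose infimum is the level. -/
def absSet (H : ι → Ω → AddSubgroup G) (s : ℕ) (Y : Finset Ω) (z : G) : Set ℕ :=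
  {r | (r ≤ s ∧ absK H Y (2 ^ r) z) ∨ r = s + 1}

theorem absSet_top (H : ι → Ω → AddSubgroup G) (s : ℕ) (Y : Finset Ω) (z : G) :
    s + 1 ∈ absSet H s Y z := Or.inr rfl

theorem absK_neg (H : ι → Ω → AddSubgroup G) (Y : Finset Ω) (k : ℕ) (z : G) :
    absK H Y k (-z) ↔ absK H Y k z := by
  unfold absK
  simp only [neg_mem_iff]

theorem absK_add (H : ι → Ω → AddSubgroup G) (Y : Finset Ω) (r r' : ℕ) (z z' : G)
    (h : absK H Y (2 ^ r) z) (h' : absK H Y (2 ^ r') z') :
    absK H Y (2 ^ (max r r' + 1)) (z + z') := by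
  classical
  intro B hB
  have h1 : 2 ^ r ≤ 2 ^ (max r r') := Nat.pow_le_pow_right (by norm_num) (le_max_left _ _)
  have h2 : 2 ^ r' ≤ 2 ^ (max r r') := Nat.pow_le_pow_right (by norm_num) (le_max_right _ _)
  have h3 : 2 ^ (max r r' + 1) = 2 * 2 ^ (max r r') := by rw [pow_succ]; ring
  obtain ⟨B1, hB1, hc1⟩ := Finset.exists_subset_card_eq (s := B) (n := 2 ^ r) (by omega)
  have hsd : (B \ B1).card = B.card - B1.card := Finset.card_sdiff_of_subset hB1
  obtain ⟨B2, hB2, hc2⟩ := Finset.exists_subset_card_eq (s := B \ B1) (n := 2 ^ r') (by omega)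
  obtain ⟨x1, hx1, hz1⟩ := h B1 hc1
  obtain ⟨x2, hx2, hz2⟩ := h' B2 hc2
  refine ⟨fun a => if a ∈ B1 then x1 a else x2 a, fun a => ?_, add_mem ?_ ?_⟩
  · by_cases ha : a ∈ B1
    · simp only [ha, if_true]; exact hx1 a
    · simp only [ha, if_false]; exact hx2 a
  · have hle : (⨆ a ∈ B1, H a (x1 a)) ≤ ⨆ a ∈ B, H a (if a ∈ B1 then x1 a else x2 a) :=
      iSup₂_le fun a ha => le_iSup₂_of_le a (hB1 ha) (by rw [if_pos ha])
    exact hle hz1
  · have hle : (⨆ a ∈ B2, H a (x2 a)) ≤ ⨆ a ∈ B, H a (if a ∈ B1 then x1 a else x2 a) :=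
      iSup₂_le fun a ha => le_iSup₂_of_le a (Finset.mem_sdiff.1 (hB2 ha)).1
        (by rw [if_neg (Finset.mem_sdiff.1 (hB2 ha)).2])
    exact hle hz2

end AbsAux

theorem absStmt : AbsStmt := by
  intro G V Ω ι _ _ _ _ _ s H φ hι hker hsep
  classical
  have hmem : ∀ (Y : Finset Ω) (z : G), sInf (absSet H s Y z) ∈ absSet H s Y z :=
    fun Y z => Nat.sInf_mem ⟨_, absSet_top H s Y z⟩
  have htop : ∀ (Y : Finset Ω) (z : G), sInf (absSet H s Y z) ≤ s + 1 :=
    fun Y z => Nat.sInf_le (absSet_top H s Y z)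
  refine ⟨{ l := fun α z => sInf (absSet H s α.1 z)
            Y := fun α => α.1
            φ := φ
            le_top := fun α z => htop α.1 z
            neg := fun α z => ?_
            ultra := fun α z z' => ?_
            sep := fun z hz => ?_
            big := fun α => α.2
            ker := fun α w z hw hz => ?_ }⟩
  · have : absSet H s α.1 (-z) = absSet H s α.1 z := by
      unfold absSet
      simp only [absK_neg]
    rw [this]
  · by_cases hm : s ≤ max (sInf (absSet H s α.1 z)) (sInf (absSet H s α.1 z'))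
    · have := htop α.1 (z + z')
      omega
    · have hz := hmem α.1 z
      have hz' := hmem α.1 z'
      generalize sInf (absSet H s α.1 z) = r at hm hz ⊢
      generalize sInf (absSet H s α.1 z') = r' at hm hz' ⊢
      have hr : r ≤ max r r' := le_max_left _ _
      have hr' : r' ≤ max r r' := le_max_right _ _
      rcases hz with ⟨_, hz⟩ | hz
      · rcases hz' with ⟨_, hz'⟩ | hz'
        · exact Nat.sInf_le (Or.inl ⟨by omega, absK_add H α.1 r r' z z' hz hz'⟩)
        · omega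
      · omega
  · obtain ⟨Y, hY, hnot⟩ := hsep z hz
    refine ⟨⟨Y, hY⟩, ?_⟩
    rcases hmem Y z with ⟨hr, hK⟩ | h
    · exfalso
      have hle : 2 ^ sInf (absSet H s Y z) ≤ (Finset.univ : Finset ι).card := by
        rw [Finset.card_univ, hι]
        exact Nat.pow_le_pow_right (by norm_num) hr
      obtain ⟨B, _, hB⟩ := Finset.exists_subset_card_eq hle
      obtain ⟨x, hx, hzx⟩ := hK B hB
      have hle2 : (⨆ a ∈ B, H a (x a)) ≤ ⨆ a, H a (x a) :=
        iSup₂_le fun a _ => le_iSup (fun a => H a (x a)) a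
      exact hnot x hx (hle2 hzx)
    · exact h
  · refine Nat.eq_zero_of_le_zero (Nat.sInf_le (Or.inl ⟨Nat.zero_le _, ?_⟩))
    intro B hB
    rw [pow_zero, Finset.card_eq_one] at hB
    obtain ⟨a, rfl⟩ := hB
    refine ⟨fun _ => w, fun _ => hw, ?_⟩
    have hle : H a w ≤ ⨆ a' ∈ ({a} : Finset ι), H a' w :=
      le_iSup₂_of_le (f := fun a' (_ : a' ∈ ({a} : Finset ι)) => H a' w) a
        (Finset.mem_singleton_self a) le_rfl
    exact hle (hker w z hz a)

end Crest.Agent.DU
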