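import Crest.Agent.DU.Defs

set_option autoImplicit false
open Finset

namespace Crest.Agent.DU

theorem approx_missed {C Ω : Type} [Fintype C] [Fintype Ω] [Nonempty Ω] (μ : C → ℝ)
    (hμ : ∀ c, 0 ≤ μ c) (Y : C → Finset Ω) (hY : ∀ c, Fintype.card Ω ≤ 2 * (Y c).card)
    (miss : C → Prop) [DecidablePred miss] [DecidableEq Ω] (ε : ℝ)
    (h : ∀ w : Ω, ∑ c, (if miss c ∧ w ∈ Y c then μ c else 0) ≤ ε) :
    ∑ c, (if miss c then μ c else 0) ≤ 2 * ε := by
  have hpos : (0 : ℝ) < Fintype.card Ω := by exact_mod_cast Fintype.card_pos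
  have h1 : ∑ w : Ω, ∑ c, (if miss c ∧ w ∈ Y c then μ c else 0) ≤ (Fintype.card Ω : ℝ) * ε := by
    calc ∑ w : Ω, ∑ c, (if miss c ∧ w ∈ Y c then μ c else 0) ≤ ∑ _w : Ω, ε :=
          Finset.sum_le_sum (fun w _ => h w)
      _ = (Fintype.card Ω : ℝ) * ε := by simp
  rw [Finset.sum_comm] at h1
  have h2 : ∀ c, (Fintype.card Ω : ℝ) * (if miss c then μ c else 0) ≤
      2 * ∑ w : Ω, (if miss c ∧ w ∈ Y c then μ c else 0) := by
    intro c
    by_cases hm : miss c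
    · have e : ∑ w : Ω, (if miss c ∧ w ∈ Y c then μ c else 0) = ((Y c).card : ℝ) * μ c := by
        simp only [hm, true_and]
        rw [← Finset.sum_filter]
        simp
      rw [e, if_pos hm]
      have : (Fintype.card Ω : ℝ) ≤ 2 * ((Y c).card : ℝ) := by exact_mod_cast hY c
      have := mul_le_mul_of_nonneg_right this (hμ c)
      linarith
    · simp [hm]
  have h3 : (Fintype.card Ω : ℝ) * ∑ c, (if miss c then μ c else 0) ≤
      2 * ((Fintype.card Ω : ℝ) * ε) := by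
    rw [Finset.mul_sum]
    calc ∑ c, (Fintype.card Ω : ℝ) * (if miss c then μ c else 0)
        ≤ ∑ c, 2 * ∑ w : Ω, (if miss c ∧ w ∈ Y c then μ c else 0) :=
          Finset.sum_le_sum (fun c _ => h2 c)
      _ = 2 * ∑ c, ∑ w : Ω, (if miss c ∧ w ∈ Y c then μ c else 0) := by rw [Finset.mul_sum]
      _ ≤ 2 * ((Fintype.card Ω : ℝ) * ε) := by linarith
  have h4 : (Fintype.card Ω : ℝ) * ∑ c, (if miss c then μ c else 0) ≤
      (Fintype.card Ω : ℝ) * (2 * ε) := by linarith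
  exact le_of_mul_le_mul_left h4 hpos

theorem approx (hg : GreedyStmt) : ApproxStmt := by
  classical
  intro G A Ω V _ _ _ _ _ _ m E L hE y hy
  have hμ : ∀ c, 0 ≤ |y c| := fun c => abs_nonneg _
  obtain ⟨S, hS⟩ := hg (A × G) Ω (fun c => |y c|) (fun w c => w ∈ L.Y c.1) E hE hμ hy
  have hQ0 : ∀ r : Fin (m + 1), ∃ Q : Fin E → G, ∀ x : G,
      ∑ c : A × G, (if (∀ i, ¬ L.l c.1 (Q i - c.2) ≤ (r : ℕ)) ∧ L.l c.1 (x - c.2) ≤ (r : ℕ)
        then |y c| else 0) ≤ 1 / (E : ℝ) := by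
    intro r
    obtain ⟨Q, hQ⟩ := hg (A × G) G (fun c => |y c|)
      (fun x c => L.l c.1 (x - c.2) ≤ (r : ℕ)) E hE hμ hy
    refine ⟨Q, fun x => ?_⟩
    have := hQ x
    rw [Finset.sum_filter] at this
    convert this
  choose Q hQ using hQ0
  have hlab : ∀ c : A × G, ∃ lab : Fin (m + 1) × Fin E,
      L.l c.1 (Q lab.1 lab.2 - c.2) ≤ (lab.1 : ℕ) ∧
      ∀ u : Fin (m + 1), (u : ℕ) < (lab.1 : ℕ) → ∀ j, ¬ L.l c.1 (Q u j - c.2) ≤ (u : ℕ) := by
    intro c
    obtain ⟨r, hr, hmin⟩ := Finset.exists_min_image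
      (univ.filter (fun u : Fin (m + 1) => ∃ j, L.l c.1 (Q u j - c.2) ≤ (u : ℕ)))
      (fun u => (u : ℕ))
      ⟨Fin.last m, by
        simp only [mem_filter, mem_univ, true_and]
        exact ⟨⟨0, hE⟩, by simpa using L.le_top _ _⟩⟩
    simp only [mem_filter, mem_univ, true_and] at hr hmin
    obtain ⟨j, hj⟩ := hr
    refine ⟨(r, j), hj, fun u hu j' hj' => ?_⟩
    have := hmin u ⟨j', hj'⟩
    simp only at hu
    omega
  choose lab hlab1 hlab2 using hlab
  refine ⟨S, Q, lab, fun Q' hQ' P => ?_⟩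
  have hmiss : ∑ c : A × G, (if (∀ i, S i ∉ L.Y c.1) then |y c| else 0) ≤ 2 * (1 / (E : ℝ)) := by
    refine approx_missed (fun c : A × G => |y c|) hμ (fun c => L.Y c.1) (fun c => L.big c.1)
      (fun c => ∀ i, S i ∉ L.Y c.1) _ (fun w => ?_)
    have := hS w
    rw [Finset.sum_filter] at this
    convert this
  have hpt : ∀ c : A × G, |y c| * |(L.l c.1 (P - c.2) : ℝ) -
      ((max (L.l c.1 (P - Q' (lab c).1 (lab c).2)) ((lab c).1 : ℕ) : ℕ) : ℝ)| ≤
      2 * |y c| + (m : ℝ) * (if (∀ i, S i ∉ L.Y c.1) then |y c| else 0) +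
      (m : ℝ) * ∑ u : Fin m, (if (∀ i, ¬ L.l c.1 (Q u.castSucc i - c.2) ≤ (u.castSucc : ℕ)) ∧
        L.l c.1 (P - c.2) ≤ (u.castSucc : ℕ) then |y c| else 0) := by
    intro c
    have hm0 : (0 : ℝ) ≤ m := Nat.cast_nonneg m
    have hy0 := hμ c
    have hA : 0 ≤ (if (∀ i, S i ∉ L.Y c.1) then |y c| else 0) := by
      split_ifs
      · exact hy0
      · exact le_rfl
    have hterm : ∀ u : Fin m, 0 ≤ (if (∀ i, ¬ L.l c.1 (Q u.castSucc i - c.2) ≤ (u.castSucc : ℕ)) ∧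
        L.l c.1 (P - c.2) ≤ (u.castSucc : ℕ) then |y c| else 0) := by
      intro u
      split_ifs
      · exact hy0
      · exact le_rfl
    have hB : 0 ≤ ∑ u : Fin m, (if (∀ i, ¬ L.l c.1 (Q u.castSucc i - c.2) ≤ (u.castSucc : ℕ)) ∧
        L.l c.1 (P - c.2) ≤ (u.castSucc : ℕ) then |y c| else 0) :=
      Finset.sum_nonneg (fun u _ => hterm u)
    have hu : L.l c.1 (P - c.2) ≤ m := L.le_top _ _
    have hv1 : L.l c.1 (P - Q' (lab c).1 (lab c).2) ≤ m := L.le_top _ _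
    have hr : ((lab c).1 : ℕ) ≤ m := Nat.lt_succ_iff.mp (lab c).1.2
    have hv : max (L.l c.1 (P - Q' (lab c).1 (lab c).2)) ((lab c).1 : ℕ) ≤ m := max_le hv1 hr
    have herr : |(L.l c.1 (P - c.2) : ℝ) -
        ((max (L.l c.1 (P - Q' (lab c).1 (lab c).2)) ((lab c).1 : ℕ) : ℕ) : ℝ)| ≤ m := by
      have h1 : (L.l c.1 (P - c.2) : ℝ) ≤ m := by exact_mod_cast hu
      have h2 : ((max (L.l c.1 (P - Q' (lab c).1 (lab c).2)) ((lab c).1 : ℕ) : ℕ) : ℝ) ≤ m := by
        exact_mod_cast hv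
      have h3 : (0 : ℝ) ≤ (L.l c.1 (P - c.2) : ℝ) := Nat.cast_nonneg _
      have h4 : (0 : ℝ) ≤
        ((max (L.l c.1 (P - Q' (lab c).1 (lab c).2)) ((lab c).1 : ℕ) : ℕ) : ℝ) := Nat.cast_nonneg _
      rw [abs_le]; constructor <;> linarith
    have herr' := mul_le_mul_of_nonneg_left herr hy0
    by_cases hmi : ∀ i, S i ∉ L.Y c.1
    · rw [if_pos hmi]
      have := mul_nonneg hm0 hB
      nlinarith
    · by_cases hur : L.l c.1 (P - c.2) < ((lab c).1 : ℕ)
      · have hlt : L.l c.1 (P - c.2) < m := lt_of_lt_of_le hur hr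
        have hle := Finset.single_le_sum (f := fun u : Fin m =>
          (if (∀ i, ¬ L.l c.1 (Q u.castSucc i - c.2) ≤ (u.castSucc : ℕ)) ∧
            L.l c.1 (P - c.2) ≤ (u.castSucc : ℕ) then |y c| else 0))
          (fun u _ => hterm u) (Finset.mem_univ (⟨L.l c.1 (P - c.2), hlt⟩ : Fin m))
        have hc : (∀ i, ¬ L.l c.1 (Q (⟨L.l c.1 (P - c.2), hlt⟩ : Fin m).castSucc i - c.2) ≤
            ((⟨L.l c.1 (P - c.2), hlt⟩ : Fin m).castSucc : ℕ)) ∧
            L.l c.1 (P - c.2) ≤ ((⟨L.l c.1 (P - c.2), hlt⟩ : Fin m).castSucc : ℕ) :=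
          ⟨hlab2 c _ (by simpa using hur), by simp⟩
        simp only [if_pos hc] at hle
        have h5 := mul_le_mul_of_nonneg_left hle hm0
        have h6 := mul_nonneg hm0 hA
        nlinarith
      · push Not at hmi hur
        obtain ⟨i, hi⟩ := hmi
        have hz : L.l c.1 (Q' (lab c).1 (lab c).2 - Q (lab c).1 (lab c).2) = 0 := by
          refine L.ker _ (S i) _ hi ?_
          rw [map_sub, hQ', sub_self]
        have h1 := L.ultra c.1 (Q' (lab c).1 (lab c).2 - Q (lab c).1 (lab c).2)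
          (Q (lab c).1 (lab c).2 - c.2)
        rw [sub_add_sub_cancel, hz] at h1
        have h1' := hlab1 c
        have h2 := L.ultra c.1 (P - Q' (lab c).1 (lab c).2) (Q' (lab c).1 (lab c).2 - c.2)
        rw [sub_add_sub_cancel] at h2
        have h3 := L.ultra c.1 (P - c.2) (-(Q' (lab c).1 (lab c).2 - c.2))
        have e3 : P - c.2 + -(Q' (lab c).1 (lab c).2 - c.2) = P - Q' (lab c).1 (lab c).2 := by abel
        rw [e3, L.neg] at h3
        have hn1 : L.l c.1 (P - c.2) ≤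
            max (L.l c.1 (P - Q' (lab c).1 (lab c).2)) ((lab c).1 : ℕ) + 2 := by omega
        have hn2 : max (L.l c.1 (P - Q' (lab c).1 (lab c).2)) ((lab c).1 : ℕ) ≤
            L.l c.1 (P - c.2) + 2 := by omega
        have herr2 : |(L.l c.1 (P - c.2) : ℝ) -
            ((max (L.l c.1 (P - Q' (lab c).1 (lab c).2)) ((lab c).1 : ℕ) : ℕ) : ℝ)| ≤ 2 := by
          have a1 : (L.l c.1 (P - c.2) : ℝ) ≤
              ((max (L.l c.1 (P - Q' (lab c).1 (lab c).2)) ((lab c).1 : ℕ) : ℕ) : ℝ) + 2 := by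
            exact_mod_cast hn1
          have a2 : ((max (L.l c.1 (P - Q' (lab c).1 (lab c).2)) ((lab c).1 : ℕ) : ℕ) : ℝ) ≤
              (L.l c.1 (P - c.2) : ℝ) + 2 := by exact_mod_cast hn2
          rw [abs_le]; constructor <;> linarith
        have h7 := mul_le_mul_of_nonneg_left herr2 hy0
        have h8 := mul_nonneg hm0 hA
        have h9 := mul_nonneg hm0 hB
        linarith
  have hsum := Finset.sum_le_sum (fun c (_ : c ∈ (univ : Finset (A × G))) => hpt c)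
  rw [Finset.sum_add_distrib, Finset.sum_add_distrib, ← Finset.mul_sum, ← Finset.mul_sum,
    ← Finset.mul_sum, Finset.sum_comm] at hsum
  have hlev : ∑ u : Fin m, ∑ c : A × G,
      (if (∀ i, ¬ L.l c.1 (Q u.castSucc i - c.2) ≤ (u.castSucc : ℕ)) ∧
        L.l c.1 (P - c.2) ≤ (u.castSucc : ℕ) then |y c| else 0) ≤ (m : ℝ) * (1 / (E : ℝ)) := by
    calc _ ≤ ∑ _u : Fin m, (1 / (E : ℝ)) := Finset.sum_le_sum (fun u _ => hQ u.castSucc P)
      _ = (m : ℝ) * (1 / (E : ℝ)) := by simp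
  have hm0 : (0 : ℝ) ≤ m := Nat.cast_nonneg m
  have b1 := mul_le_mul_of_nonneg_left hmiss hm0
  have b2 := mul_le_mul_of_nonneg_left hlev hm0
  have e : (m : ℝ) * (m + 2) / E = m * (2 * (1 / (E : ℝ))) + m * (m * (1 / (E : ℝ))) := by ring
  rw [e]
  linarith

end Crest.Agent.DU
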