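import Crest.Agent.DU.Defs

set_option autoImplicit false
open Finset

namespace Crest.Agent.DU

namespace Code

theorem fiber {C T : Type} [Fintype C] [Fintype T] [DecidableEq T] (y : C → ℝ) (g : C → T)
    (h : T → ℝ) :
    ∑ c, y c * h (g c) = ∑ τ, (∑ c ∈ univ.filter (fun c => g c = τ), y c) * h τ := by
  rw [← Finset.sum_fiberwise (s := univ) (g := g) (f := fun c => y c * h (g c))]
  refine Finset.sum_congr rfl fun τ _ => ?_
  rw [Finset.sum_mul]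
  refine Finset.sum_congr rfl fun c hc => ?_
  rw [(Finset.mem_filter.1 hc).2]

theorem wle {C : Type} [Fintype C] (y : C → ℝ) (s : Finset C) (hy : ∑ c, |y c| ≤ 1) :
    |∑ c ∈ s, y c| ≤ 1 :=
  (Finset.abs_sum_le_sum_abs _ _).trans
    ((Finset.sum_le_sum_of_subset_of_nonneg (Finset.subset_univ s)
      (fun _ _ _ => abs_nonneg _)).trans hy)

theorem close (R : ℕ) (hR : 0 < R) (w w' : ℝ) (hw : |w| ≤ 1) (hw' : |w'| ≤ 1)
    (h : min ⌊(w + 1) * R⌋₊ (2 * R) = min ⌊(w' + 1) * R⌋₊ (2 * R)) : |w - w'| ≤ 1 / (R : ℝ) := by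
  have hR' : (0 : ℝ) < R := by exact_mod_cast hR
  have key : ∀ u : ℝ, |u| ≤ 1 → ⌊(u + 1) * R⌋₊ ≤ 2 * R := by
    intro u hu
    apply Nat.floor_le_of_le
    have := (abs_le.1 hu).2
    push_cast
    nlinarith
  rw [min_eq_left (key w hw), min_eq_left (key w' hw')] at h
  have h0 : 0 ≤ (w + 1) * R := mul_nonneg (by linarith [(abs_le.1 hw).1]) hR'.le
  have h0' : 0 ≤ (w' + 1) * R := mul_nonneg (by linarith [(abs_le.1 hw').1]) hR'.le
  have a1 := Nat.floor_le h0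
  have a2 := Nat.lt_floor_add_one ((w + 1) * R)
  have b1 := Nat.floor_le h0'
  have b2 := Nat.lt_floor_add_one ((w' + 1) * R)
  rw [h] at a1 a2
  rw [le_div_iff₀ hR', ← abs_of_pos hR', ← abs_mul, abs_le]
  constructor <;> nlinarith

end Code

theorem codeStmt (ha : ApproxStmt) : CodeStmt := by
  classical
  intro G A Ω V _ _ _ _ _ _ m E R L hE hR
  have hex : ∀ y : A × G → ℝ, ∃ (S : Fin E → Ω) (Q : Fin (m + 1) → Fin E → G)
      (lab : A × G → Fin (m + 1) × Fin E), ∑ c, |y c| ≤ 1 →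
      ∀ Q' : Fin (m + 1) → Fin E → G,
        (∀ r j i, L.φ (S i) (Q' r j) = L.φ (S i) (Q r j)) →
        ∀ P : G, ∑ c, |y c| * |(L.l c.1 (P - c.2) : ℝ) -
            ((max (L.l c.1 (P - Q' (lab c).1 (lab c).2)) ((lab c).1 : ℕ) : ℕ) : ℝ)|
          ≤ 2 + (m : ℝ) * (m + 2) / E := by
    intro y
    by_cases hy : ∑ c, |y c| ≤ 1
    · obtain ⟨S, Q, lab, h⟩ := ha G A Ω V m E L hE y hy
      exact ⟨S, Q, lab, fun _ => h⟩
    · exact ⟨fun _ => Classical.arbitrary Ω, fun _ _ => 0, fun _ => (0, ⟨0, hE⟩),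
        fun h => absurd h hy⟩
  choose S Q lab hS using hex
  let w : (A × G → ℝ) → A × Fin (m + 1) × Fin E → ℝ := fun y τ =>
    ∑ c ∈ univ.filter (fun c : A × G => (c.1, lab y c) = τ), y c
  refine ⟨fun y => (S y, fun r j i => L.φ (S y i) (Q y r j),
    fun τ => ⟨min ⌊(w y τ + 1) * R⌋₊ (2 * R), Nat.lt_succ_of_le (min_le_right _ _)⟩), ?_⟩
  intro y y' hy hy' hc P
  have h1 : S y = S y' := congrArg Prod.fst hc
  have h2 : (fun r j i => L.φ (S y i) (Q y r j)) = (fun r j i => L.φ (S y' i) (Q y' r j)) :=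
    congrArg (fun z => z.2.1) hc
  have h3 : ∀ τ, min ⌊(w y τ + 1) * R⌋₊ (2 * R) = min ⌊(w y' τ + 1) * R⌋₊ (2 * R) := fun τ =>
    congrArg (fun z => ((z.2.2 τ : Fin (2 * R + 1)) : ℕ)) hc
  have hw : ∀ τ, |w y τ - w y' τ| ≤ 1 / (R : ℝ) := fun τ =>
    Code.close R hR _ _ (Code.wle y _ hy) (Code.wle y' _ hy') (h3 τ)
  let h : A × Fin (m + 1) × Fin E → ℝ := fun τ =>
    ((max (L.l τ.1 (P - Q y' τ.2.1 τ.2.2)) (τ.2.1 : ℕ) : ℕ) : ℝ)
  have hh0 : ∀ τ, 0 ≤ h τ := fun τ => Nat.cast_nonneg _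
  have hhm : ∀ τ, h τ ≤ m := fun τ => by
    have : max (L.l τ.1 (P - Q y' τ.2.1 τ.2.2)) (τ.2.1 : ℕ) ≤ m :=
      max_le (L.le_top _ _) (Nat.le_of_lt_succ τ.2.1.2)
    exact Nat.cast_le.2 this
  have e1 := hS y hy (Q y') (fun r j i => by
    have : L.φ (S y i) (Q y r j) = L.φ (S y' i) (Q y' r j) :=
      congrFun (congrFun (congrFun h2 r) j) i
    rw [this, h1]) P
  have e2 := hS y' hy' (Q y') (fun _ _ _ => rfl) P
  have f1 := Code.fiber y (fun c : A × G => (c.1, lab y c)) h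
  have f2 := Code.fiber y' (fun c : A × G => (c.1, lab y' c)) h
  have split : ∑ c, (y c - y' c) * (L.l c.1 (P - c.2) : ℝ) =
      ∑ c, y c * ((L.l c.1 (P - c.2) : ℝ) - h (c.1, lab y c)) -
      ∑ c, y' c * ((L.l c.1 (P - c.2) : ℝ) - h (c.1, lab y' c)) +
      ∑ τ, (w y τ - w y' τ) * h τ := by
    simp only [sub_mul, mul_sub, Finset.sum_sub_distrib]
    rw [f1, f2]
    ring
  have g1 : |∑ c, y c * ((L.l c.1 (P - c.2) : ℝ) - h (c.1, lab y c))| ≤
      2 + (m : ℝ) * (m + 2) / E := by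
    refine (Finset.abs_sum_le_sum_abs _ _).trans ?_
    simp only [abs_mul]
    exact e1
  have g2 : |∑ c, y' c * ((L.l c.1 (P - c.2) : ℝ) - h (c.1, lab y' c))| ≤
      2 + (m : ℝ) * (m + 2) / E := by
    refine (Finset.abs_sum_le_sum_abs _ _).trans ?_
    simp only [abs_mul]
    exact e2
  have g3 : |∑ τ, (w y τ - w y' τ) * h τ| ≤
      (m : ℝ) * (Fintype.card (A × Fin (m + 1) × Fin E) : ℝ) / R := by
    refine (Finset.abs_sum_le_sum_abs _ _).trans ?_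
    have : ∀ τ ∈ (univ : Finset (A × Fin (m + 1) × Fin E)),
        |(w y τ - w y' τ) * h τ| ≤ 1 / (R : ℝ) * m := fun τ _ => by
      rw [abs_mul, abs_of_nonneg (hh0 τ)]
      exact mul_le_mul (hw τ) (hhm τ) (hh0 τ) (by positivity)
    refine (Finset.sum_le_sum this).trans (le_of_eq ?_)
    rw [Finset.sum_const, Finset.card_univ, nsmul_eq_mul]
    ring
  rw [split]
  have t1 := abs_add_le (∑ c, y c * ((L.l c.1 (P - c.2) : ℝ) - h (c.1, lab y c)) -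
      ∑ c, y' c * ((L.l c.1 (P - c.2) : ℝ) - h (c.1, lab y' c))) (∑ τ, (w y τ - w y' τ) * h τ)
  have t2 := abs_sub (∑ c, y c * ((L.l c.1 (P - c.2) : ℝ) - h (c.1, lab y c)))
      (∑ c, y' c * ((L.l c.1 (P - c.2) : ℝ) - h (c.1, lab y' c)))
  linarith

end Crest.Agent.DU
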