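import Crest.Agent.DU.Defs

set_option autoImplicit false
open Finset

namespace Crest.Agent.DU

section Conc

variable {t D q : ℕ} {F : Type} [Field F]

/-- Contraction of the `a`-th tensor slot with the vector `v a w`. -/
def concPsi (v : Fin (t + 1) → Fin q → Fin D → F) (a : Fin (t + 1)) (w : Fin q) :
    ((Fin (t + 1) → Fin D) → F) →+ ((Fin t → Fin D) → F) where
  toFun z := fun e => ∑ i, v a w i * z (Fin.insertNth (α := fun _ => Fin D) a i e)
  map_zero' := by
    funext e
    simp
  map_add' z z' := by
    funext e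
    simp [mul_add, Finset.sum_add_distrib]

/-- All slot contractions together. -/
def concPhi (v : Fin (t + 1) → Fin q → Fin D → F) (w : Fin q) :
    ((Fin (t + 1) → Fin D) → F) →+ (Fin (t + 1) → (Fin t → Fin D) → F) where
  toFun z := fun a => concPsi v a w z
  map_zero' := by
    funext a
    simp
  map_add' z z' := by
    funext a
    simp

/-- Full contraction with a product vector. -/
def concLam (v : Fin (t + 1) → Fin q → Fin D → F) (x : Fin (t + 1) → Fin q) :
    ((Fin (t + 1) → Fin D) → F) →+ F where
  toFun z := ∑ e : Fin (t + 1) → Fin D, (∏ a, v a (x a) (e a)) * z e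
  map_zero' := by simp
  map_add' z z' := by simp [mul_add, Finset.sum_add_distrib]

theorem conc_ker_le (v : Fin (t + 1) → Fin q → Fin D → F) (x : Fin (t + 1) → Fin q)
    (a : Fin (t + 1)) : (concPsi v a (x a)).ker ≤ (concLam v x).ker := by
  intro z hz
  rw [AddMonoidHom.mem_ker] at hz ⊢
  have hz' : ∀ e : Fin t → Fin D,
      ∑ i, v a (x a) i * z (Fin.insertNth (α := fun _ => Fin D) a i e) = 0 :=
    fun e => congrFun hz e
  show ∑ e : Fin (t + 1) → Fin D, (∏ a, v a (x a) (e a)) * z e = 0
  rw [← (Fin.insertNthEquiv (fun _ => Fin D) a).sum_comp, Fintype.sum_prod_type,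
    Finset.sum_comm]
  refine Finset.sum_eq_zero fun e _ => ?_
  have key : ∀ i : Fin D,
      (∏ b, v b (x b) ((Fin.insertNthEquiv (fun _ => Fin D) a (i, e)) b)) *
          z (Fin.insertNthEquiv (fun _ => Fin D) a (i, e)) =
        (∏ b : Fin t, v (a.succAbove b) (x (a.succAbove b)) (e b)) *
          (v a (x a) i * z (Fin.insertNth (α := fun _ => Fin D) a i e)) := by
    intro i
    rw [Fin.prod_univ_succAbove _ a]
    have h1 : (Fin.insertNthEquiv (fun _ => Fin D) a (i, e)) =
        Fin.insertNth (α := fun _ => Fin D) a i e := rfl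
    rw [h1]
    simp only [Fin.insertNth_apply_same, Fin.insertNth_apply_succAbove]
    ring
  rw [Finset.sum_congr rfl fun i _ => key i, ← Finset.mul_sum, hz', mul_zero]

end Conc

theorem conc (hc : CoverStmt) : ConcStmt := by
  classical
  intro t D q F _ v hdet hq
  refine ⟨fun a w => (concPsi v a w).ker, fun w => concPhi v w, ?_, ?_⟩
  · intro w z hz a
    rw [AddMonoidHom.mem_ker]
    exact congrFun hz a
  · intro z hz
    obtain ⟨B, hB, hcov⟩ := hc (Fin (t + 1)) (Fin (t + 1) → Fin D) (Fin q)
      {x | concLam v x z = 0} (by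
        intro x hx hinj
        apply hz
        refine Matrix.eq_zero_of_mulVec_eq_zero (hdet x hinj) ?_
        funext l
        exact hx l)
    have hB' : B.card ≤ (t + 1) * D ^ (t + 1) := by simpa using hB
    refine ⟨Bᶜ, ?_, ?_⟩
    · rw [Finset.card_compl, Fintype.card_fin]
      omega
    · intro x hx hmem
      have hle : (⨆ a, (concPsi v a (x a)).ker) ≤ (concLam v x).ker :=
        iSup_le fun a => conc_ker_le v x a
      have h0 : concLam v x z = 0 := (AddMonoidHom.mem_ker).1 (hle hmem)
      obtain ⟨a, ha⟩ := hcov x h0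
      exact (Finset.mem_compl.1 (hx a)) ha

end Crest.Agent.DU
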