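import Crest.Agent.DU.Defs

set_option autoImplicit false
open Finset

namespace Crest.Agent.DU

theorem cover : CoverStmt := by
  classical
  intro ι κ Ω _ _ _ Z hZ
  let good : Finset (ι → Ω) → Prop := fun M =>
    (∀ x ∈ M, x ∈ Z) ∧ ∀ x ∈ M, ∀ y ∈ M, x ≠ y → ∀ a, x a ≠ y a
  have hne : (univ.filter good).Nonempty := ⟨∅, by simp [good]⟩
  obtain ⟨M, hM, hmax⟩ := exists_max_image (univ.filter good) Finset.card hne
  have hMg : good M := (mem_filter.1 hM).2
  have hcard : M.card ≤ Fintype.card κ := by
    by_contra hlt
    push Not at hlt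
    have h1 : Fintype.card κ ≤ Fintype.card M := by
      rw [Fintype.card_coe]; exact hlt.le
    obtain ⟨e⟩ := Function.Embedding.nonempty_of_card_le h1
    refine hZ (fun l => (e l : ι → Ω)) (fun l => hMg.1 _ (e l).2) ?_
    intro a l l' hll
    by_contra hn
    have h2 : (e l : ι → Ω) ≠ (e l' : ι → Ω) := fun h => hn (e.injective (Subtype.ext h))
    exact hMg.2 _ (e l).2 _ (e l').2 h2 a hll
  refine ⟨((univ : Finset ι) ×ˢ M).image (fun p => p.2 p.1), ?_, ?_⟩
  · refine card_image_le.trans ?_
    rw [card_product, card_univ]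
    exact Nat.mul_le_mul_left _ hcard
  · intro x hx
    by_contra hno
    push Not at hno
    have hdiff : ∀ y ∈ M, ∀ a, x a ≠ y a := by
      intro y hy a h
      exact hno a (mem_image.2 ⟨(a, y), mem_product.2 ⟨mem_univ _, hy⟩, h.symm⟩)
    rcases isEmpty_or_nonempty ι with hι | hι
    · exact hZ (fun _ => x) (fun _ => hx) (fun a => (hι.false a).elim)
    · obtain ⟨a0⟩ := hι
      have hxM : x ∉ M := fun h => hdiff x h a0 rfl
      have hg : good (insert x M) := by
        refine ⟨?_, ?_⟩
        · intro y hy
          rcases mem_insert.1 hy with rfl | hy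
          · exact hx
          · exact hMg.1 y hy
        · intro y hy y' hy' hne' a
          rcases mem_insert.1 hy with h1 | h1
          · rcases mem_insert.1 hy' with h2 | h2
            · exact absurd (h1.trans h2.symm) hne'
            · rw [h1]; exact hdiff y' h2 a
          · rcases mem_insert.1 hy' with h2 | h2
            · rw [h2]; exact (hdiff y h1 a).symm
            · exact hMg.2 y h1 y' h2 hne' a
      have := hmax _ (mem_filter.2 ⟨mem_univ _, hg⟩)
      rw [card_insert_of_notMem hxM] at this
      omega

end Crest.Agent.DU
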