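import Mathlib
import Crest.Prelude.Def_Polar

set_option autoImplicit false
open Pointwise Crest.AnalysisR Finset

namespace Crest.Agent.DU

/-- Level structure: an invariant "almost ultrametric" level function for every index `α`. -/
structure Lev (G A Ω V : Type) [AddCommGroup G] [AddCommGroup V] [Fintype Ω] (m : ℕ) where
  l : A → G → ℕ
  Y : A → Finset Ω
  φ : Ω → G →+ V
  le_top : ∀ α z, l α z ≤ m
  neg : ∀ α z, l α (-z) = l α z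
  ultra : ∀ α z z', l α (z + z') ≤ max (l α z) (l α z') + 1
  sep : ∀ z, z ≠ 0 → ∃ α, l α z = m
  big : ∀ α, Fintype.card Ω ≤ 2 * (Y α).card
  ker : ∀ α w z, w ∈ Y α → φ w z = 0 → l α z = 0

def GeoStmt : Prop :=
  ∀ (a b : ℝ), 1 ≤ a → 1 ≤ b →
  ∀ (G C D : Type) [Fintype G] [Fintype C] [Fintype D] [Nonempty C]
    (f : G → C → ℝ) (code : (C → ℝ) → D),
    (∀ P P', P ≠ P' → ∃ c, 1 ≤ |f P c - f P' c|) →
    (∀ y y' : C → ℝ, ∑ c, |y c| ≤ 1 → ∑ c, |y' c| ≤ 1 → code y = code y' →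
      ∀ P, |∑ c, (y c - y' c) * f P c| ≤ 1 / (6 * a)) →
    b * Real.log (Fintype.card D) < Real.log (Fintype.card G) →
    ∃ n : ℕ, 0 < n ∧ ∃ K : Set (EuclideanSpace ℝ (Fin n)),
      Convex ℝ K ∧ IsCompact K ∧ (interior K).Nonempty ∧ (∀ x ∈ K, -x ∈ K) ∧
      ∃ t₁ : Finset (EuclideanSpace ℝ (Fin n)),
        polarSet {x : EuclideanSpace ℝ (Fin n) | ∀ i, |x i| ≤ 1} ⊆ ⋃ y ∈ t₁, (y +ᵥ a⁻¹ • polarSet K) ∧
        ∀ t₂ : Finset (EuclideanSpace ℝ (Fin n)),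
          K ⊆ ⋃ x ∈ t₂, (x +ᵥ {z : EuclideanSpace ℝ (Fin n) | ∀ i, |z i| ≤ 1}) →
          b * Real.log t₁.card < Real.log t₂.card

open Classical in
def GreedyStmt : Prop :=
  ∀ (C X : Type) [Fintype C] [Fintype X] [Nonempty X] (μ : C → ℝ) (rel : X → C → Prop) (E : ℕ),
    0 < E → (∀ c, 0 ≤ μ c) → ∑ c, μ c ≤ 1 →
    ∃ Q : Fin E → X, ∀ x,
      ∑ c ∈ univ.filter (fun c => (∀ i, ¬ rel (Q i) c) ∧ rel x c), μ c ≤ 1 / (E : ℝ)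

def ApproxStmt : Prop :=
  ∀ (G A Ω V : Type) [AddCommGroup G] [AddCommGroup V] [Fintype G] [Fintype A] [Fintype Ω]
    [Nonempty Ω] (m E : ℕ) (L : Lev G A Ω V m), 0 < E →
    ∀ y : A × G → ℝ, ∑ c, |y c| ≤ 1 →
    ∃ (S : Fin E → Ω) (Q : Fin (m + 1) → Fin E → G) (lab : A × G → Fin (m + 1) × Fin E),
      ∀ Q' : Fin (m + 1) → Fin E → G,
        (∀ r j i, L.φ (S i) (Q' r j) = L.φ (S i) (Q r j)) →
        ∀ P : G, ∑ c, |y c| * |(L.l c.1 (P - c.2) : ℝ) -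
            ((max (L.l c.1 (P - Q' (lab c).1 (lab c).2)) ((lab c).1 : ℕ) : ℕ) : ℝ)|
          ≤ 2 + (m : ℝ) * (m + 2) / E

def CodeStmt : Prop :=
  ∀ (G A Ω V : Type) [AddCommGroup G] [AddCommGroup V] [Fintype G] [Fintype A] [Fintype Ω]
    [Nonempty Ω] (m E R : ℕ) (L : Lev G A Ω V m), 0 < E → 0 < R →
    ∃ code : (A × G → ℝ) →
        (Fin E → Ω) × (Fin (m + 1) → Fin E → Fin E → V) × (A × Fin (m + 1) × Fin E → Fin (2 * R + 1)),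
      ∀ y y' : A × G → ℝ, ∑ c, |y c| ≤ 1 → ∑ c, |y' c| ≤ 1 → code y = code y' →
        ∀ P : G, |∑ c, (y c - y' c) * (L.l c.1 (P - c.2) : ℝ)|
          ≤ 2 * (2 + (m : ℝ) * (m + 2) / E) +
            (m : ℝ) * (Fintype.card (A × Fin (m + 1) × Fin E) : ℝ) / R

def AbsStmt : Prop :=
  ∀ (G V Ω ι : Type) [AddCommGroup G] [AddCommGroup V] [Fintype Ω] [Nonempty Ω] [Fintype ι]
    (s : ℕ) (H : ι → Ω → AddSubgroup G) (φ : Ω → G →+ V), Fintype.card ι = 2 ^ s →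
    (∀ w z, φ w z = 0 → ∀ a, z ∈ H a w) →
    (∀ z : G, z ≠ 0 → ∃ Y : Finset Ω, Fintype.card Ω ≤ 2 * Y.card ∧
      ∀ x : ι → Ω, (∀ a, x a ∈ Y) → z ∉ ⨆ a, H a (x a)) →
    Nonempty (Lev G {Y : Finset Ω // Fintype.card Ω ≤ 2 * Y.card} Ω V (s + 1))

def CoverStmt : Prop :=
  ∀ (ι κ Ω : Type) [Fintype ι] [Fintype κ] [Fintype Ω] (Z : Set (ι → Ω)),
    (∀ x : κ → ι → Ω, (∀ l, x l ∈ Z) → ¬ ∀ a, Function.Injective (fun l => x l a)) →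
    ∃ B : Finset Ω, B.card ≤ Fintype.card ι * Fintype.card κ ∧ ∀ x ∈ Z, ∃ a, x a ∈ B

def ConcStmt : Prop :=
  ∀ (t D q : ℕ) (F : Type) [Field F] (v : Fin (t + 1) → Fin q → Fin D → F),
    (∀ x : (Fin (t + 1) → Fin D) → Fin (t + 1) → Fin q,
      (∀ a, Function.Injective (fun l => x l a)) →
      (Matrix.of fun l e : Fin (t + 1) → Fin D => ∏ a, v a (x l a) (e a)).det ≠ 0) →
    2 * ((t + 1) * D ^ (t + 1)) ≤ q →
    ∃ (H : Fin (t + 1) → Fin q → AddSubgroup ((Fin (t + 1) → Fin D) → F))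
      (φ : Fin q → ((Fin (t + 1) → Fin D) → F) →+ (Fin (t + 1) → (Fin t → Fin D) → F)),
      (∀ w z, φ w z = 0 → ∀ a, z ∈ H a w) ∧
      (∀ z : (Fin (t + 1) → Fin D) → F, z ≠ 0 → ∃ Y : Finset (Fin q),
        Fintype.card (Fin q) ≤ 2 * Y.card ∧
        ∀ x : Fin (t + 1) → Fin q, (∀ a, x a ∈ Y) → z ∉ ⨆ a, H a (x a))

def DetStmt : Prop :=
  ∀ (t D q : ℕ), ∃ v : Fin t → Fin q → Fin D → ℤ,
    ∀ x : (Fin t → Fin D) → Fin t → Fin q, (∀ a, Function.Injective (fun l => x l a)) →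
      (Matrix.of fun l e : Fin t → Fin D => ∏ a, v a (x l a) (e a)).det ≠ 0

def PrimeStmt : Prop :=
  ∀ (t D q N : ℕ), ∃ p : ℕ, p.Prime ∧ N ≤ p ∧ ∃ v : Fin t → Fin q → Fin D → ZMod p,
    ∀ x : (Fin t → Fin D) → Fin t → Fin q, (∀ a, Function.Injective (fun l => x l a)) →
      (Matrix.of fun l e : Fin t → Fin D => ∏ a, v a (x l a) (e a)).det ≠ 0

end Crest.Agent.DU
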