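import Mathlib
import Crest.Agent.DU.Defs

set_option autoImplicit false
open Finset

namespace Crest.Agent.DU

namespace Det

variable {t D q : ℕ}

/-- The generic determinant attached to a matching. -/
noncomputable def gen (x : (Fin t → Fin D) → Fin t → Fin q) :
    MvPolynomial (Fin t × Fin q × Fin D) ℤ :=
  (Matrix.of fun l e : Fin t → Fin D =>
    ∏ a, (MvPolynomial.X (a, x l a, e a) : MvPolynomial (Fin t × Fin q × Fin D) ℤ)).det

lemma eval_gen (x : (Fin t → Fin D) → Fin t → Fin q) (u : Fin t × Fin q × Fin D → ℤ) :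
    MvPolynomial.eval u (gen x) =
      (Matrix.of fun l e : Fin t → Fin D => ∏ a, u (a, x l a, e a)).det := by
  unfold gen
  rw [RingHom.map_det]
  congr 1
  ext l e
  simp [RingHom.mapMatrix_apply, Matrix.map_apply, map_prod]

lemma gen_ne (x : (Fin t → Fin D) → Fin t → Fin q)
    (hx : ∀ a, Function.Injective (fun l => x l a)) : gen x ≠ 0 := by
  classical
  intro h
  have h1 := eval_gen x (fun p => if ∃ l, x l p.1 = p.2.1 ∧ l p.1 = p.2.2 then 1 else 0)
  rw [h, map_zero] at h1
  have h2 : (Matrix.of fun l e : Fin t → Fin D =>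
      ∏ a, (if ∃ l', x l' a = x l a ∧ l' a = e a then (1 : ℤ) else 0)) = 1 := by
    ext l e
    have h3 : ∀ a, (∃ l', x l' a = x l a ∧ l' a = e a) ↔ l a = e a := by
      intro a
      constructor
      · rintro ⟨l', h4, h5⟩
        have : l' = l := hx a h4
        rw [← this]; exact h5
      · intro h4; exact ⟨l, rfl, h4⟩
    simp only [Matrix.of_apply, h3, Matrix.one_apply]
    by_cases hle : l = e
    · subst hle; simp
    · rw [if_neg hle]
      obtain ⟨a, ha⟩ := Function.ne_iff.mp hle
      exact Finset.prod_eq_zero (Finset.mem_univ a) (if_neg ha)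
  simp only at h1
  rw [h2, Matrix.det_one] at h1
  exact zero_ne_one h1

end Det

theorem detStmt : DetStmt := by
  classical
  intro t D q
  set S : Finset ((Fin t → Fin D) → Fin t → Fin q) :=
    univ.filter (fun x => ∀ a, Function.Injective (fun l => x l a)) with hS
  have hP : (∏ x ∈ S, Det.gen x) ≠ 0 := by
    refine Finset.prod_ne_zero_iff.mpr ?_
    intro x hx
    exact Det.gen_ne x (Finset.mem_filter.mp hx).2
  have hex : ∃ u : Fin t × Fin q × Fin D → ℤ, MvPolynomial.eval u (∏ x ∈ S, Det.gen x) ≠ 0 := by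
    by_contra hc
    push Not at hc
    apply hP
    apply MvPolynomial.funext
    intro u
    rw [hc u, map_zero]
  obtain ⟨u, hu⟩ := hex
  refine ⟨fun a w i => u (a, w, i), ?_⟩
  intro x hx
  rw [map_prod] at hu
  have h1 := Finset.prod_ne_zero_iff.mp hu x (Finset.mem_filter.mpr ⟨Finset.mem_univ _, hx⟩)
  rw [Det.eval_gen] at h1
  exact h1

end Crest.Agent.DU
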