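import Crest.Agent.DU.Defs

set_option autoImplicit false
open Pointwise Crest.AnalysisR Finset

namespace Crest.Agent.DU

theorem fin8_num (b : ℝ) (hb : 1 ≤ b) (K0 W D T p : ℕ) (hK0 : 0 < K0) (hD : b * W + 1 ≤ D)
    (hT : 0 < T) (hp : Real.exp (b * Real.log K0) < p) :
    b * Real.log ((K0 * p ^ (W * T) : ℕ) : ℝ) < Real.log ((p ^ (T * D) : ℕ) : ℝ) := by
  have hp0 : (0 : ℝ) < p := lt_trans (Real.exp_pos _) hp
  have hlog : b * Real.log K0 < Real.log p := by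
    rw [Real.lt_log_iff_exp_lt hp0]; exact hp
  have hK0' : (1 : ℝ) ≤ K0 := by exact_mod_cast hK0
  have hlK : 0 ≤ Real.log K0 := Real.log_nonneg hK0'
  have hlp : 0 < Real.log p := lt_of_le_of_lt (mul_nonneg (by linarith) hlK) hlog
  have hT' : (1 : ℝ) ≤ T := by exact_mod_cast hT
  push_cast
  rw [Real.log_mul (by positivity) (by positivity), Real.log_pow, Real.log_pow]
  push_cast
  have h1 : (b * W + 1) * (T * Real.log p) ≤ D * (T * Real.log p) :=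
    mul_le_mul_of_nonneg_right hD (by positivity)
  have h2 : Real.log p ≤ T * Real.log p := by nlinarith
  nlinarith

theorem fin8_mid (hgeo : GeoStmt) (hcode : CodeStmt) (a b : ℝ) (ha : 1 ≤ a) (hb : 1 ≤ b)
    (G A Ω V : Type) [AddCommGroup G] [AddCommGroup V] [Fintype G] [Fintype A] [Fintype Ω]
    [Fintype V] [Nonempty Ω] [Nonempty A] (m E N R : ℕ) (L : Lev G A Ω V m) (hm0 : 0 < m)
    (hm42 : 42 * a ≤ (m : ℝ)) (hE : E = m * (m + 2)) (hN : N = Fintype.card A * ((m + 1) * E))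
    (hR : R = m * N)
    (hnum : b * Real.log ((Fintype.card Ω ^ E * (2 * R + 1) ^ N *
        Fintype.card V ^ (E * E * (m + 1)) : ℕ) : ℝ) < Real.log (Fintype.card G)) :
    ∃ n : ℕ, 0 < n ∧ ∃ K : Set (EuclideanSpace ℝ (Fin n)),
      Convex ℝ K ∧ IsCompact K ∧ (interior K).Nonempty ∧ (∀ x ∈ K, -x ∈ K) ∧
      ∃ t₁ : Finset (EuclideanSpace ℝ (Fin n)),
        polarSet {x : EuclideanSpace ℝ (Fin n) | ∀ i, |x i| ≤ 1} ⊆ ⋃ y ∈ t₁, (y +ᵥ a⁻¹ • polarSet K) ∧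
        ∀ t₂ : Finset (EuclideanSpace ℝ (Fin n)),
          K ⊆ ⋃ x ∈ t₂, (x +ᵥ {z : EuclideanSpace ℝ (Fin n) | ∀ i, |z i| ≤ 1}) →
          b * Real.log t₁.card < Real.log t₂.card := by
  classical
  have hEpos : 0 < E := by rw [hE]; positivity
  have hApos : 0 < Fintype.card A := Fintype.card_pos
  have hNpos : 0 < N := by rw [hN]; positivity
  have hRpos : 0 < R := by rw [hR]; positivity
  have hNc : Fintype.card (A × Fin (m + 1) × Fin E) = N := by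
    rw [hN]; simp
  obtain ⟨code, hc⟩ := hcode G A Ω V m E R L hEpos hRpos
  have hm0' : (0 : ℝ) < m := by exact_mod_cast hm0
  refine hgeo a b ha hb G (A × G) _ (fun P c => (L.l c.1 (P - c.2) : ℝ) / m) code ?_ ?_ ?_
  · intro P P' hPP
    obtain ⟨α, hα⟩ := L.sep (P - P') (sub_ne_zero.2 hPP)
    refine ⟨(α, P'), ?_⟩
    have hY : (L.Y α).Nonempty := by
      have h1 := L.big α
      have h2 : 0 < Fintype.card Ω := Fintype.card_pos
      exact card_pos.1 (by omega)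
    obtain ⟨w, hw⟩ := hY
    have h0 : L.l α (P' - P') = 0 := L.ker α w _ hw (by simp)
    simp only [hα, h0]
    rw [div_self hm0'.ne']
    simp
  · intro y y' hy hy' hcc P
    have h1 := hc y y' hy hy' hcc P
    have h2 : ∑ c, (y c - y' c) * ((L.l c.1 (P - c.2) : ℝ) / m)
        = (∑ c, (y c - y' c) * (L.l c.1 (P - c.2) : ℝ)) / m := by
      rw [sum_div]; exact sum_congr rfl fun c _ => by ring
    rw [h2, abs_div, abs_of_pos hm0', div_le_div_iff₀ hm0' (by linarith)]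
    have h3 : (m : ℝ) * (m + 2) / E = 1 := by
      rw [hE]; push_cast; exact div_self (by positivity)
    have h4 : (m : ℝ) * (N : ℝ) / R = 1 := by
      rw [hR]; push_cast
      have : (0 : ℝ) < N := by exact_mod_cast hNpos
      exact div_self (by positivity)
    rw [h3, hNc, h4] at h1
    have h5 := abs_nonneg (∑ c, (y c - y' c) * (L.l c.1 (P - c.2) : ℝ))
    nlinarith
  · have hcD : Fintype.card ((Fin E → Ω) × (Fin (m + 1) → Fin E → Fin E → V) ×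
        (A × Fin (m + 1) × Fin E → Fin (2 * R + 1)))
        = Fintype.card Ω ^ E * (2 * R + 1) ^ N * Fintype.card V ^ (E * E * (m + 1)) := by
      rw [Fintype.card_prod, Fintype.card_prod, Fintype.card_fun,
        Fintype.card_fun (β := Fin (2 * R + 1)), hNc]
      simp only [Fintype.card_fun, Fintype.card_fin]
      rw [← pow_mul, ← pow_mul]
      ring
    rw [hcD]
    exact hnum

theorem fin8 (hgeo : GeoStmt) (hcode : CodeStmt) (habs : AbsStmt) (hconc : ConcStmt)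
    (hprime : PrimeStmt) (a b : ℝ) (ha : 1 ≤ a) (hb : 1 ≤ b) :
    ∃ n : ℕ, 0 < n ∧ ∃ K : Set (EuclideanSpace ℝ (Fin n)),
      Convex ℝ K ∧ IsCompact K ∧ (interior K).Nonempty ∧ (∀ x ∈ K, -x ∈ K) ∧
      ∃ t₁ : Finset (EuclideanSpace ℝ (Fin n)),
        polarSet {x : EuclideanSpace ℝ (Fin n) | ∀ i, |x i| ≤ 1} ⊆ ⋃ y ∈ t₁, (y +ᵥ a⁻¹ • polarSet K) ∧
        ∀ t₂ : Finset (EuclideanSpace ℝ (Fin n)),
          K ⊆ ⋃ x ∈ t₂, (x +ᵥ {z : EuclideanSpace ℝ (Fin n) | ∀ i, |z i| ≤ 1}) →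
          b * Real.log t₁.card < Real.log t₂.card := by
  classical
  obtain ⟨s, hs⟩ := exists_nat_ge (42 * a)
  obtain ⟨t, ht⟩ : ∃ t : ℕ, t + 1 = 2 ^ s :=
    ⟨2 ^ s - 1, by have := Nat.one_le_two_pow (n := s); omega⟩
  obtain ⟨E, hE⟩ : ∃ E : ℕ, E = (s + 1) * (s + 1 + 2) := ⟨_, rfl⟩
  obtain ⟨W, hW⟩ : ∃ W : ℕ, W = (t + 1) * (E * E * (s + 1 + 1)) := ⟨_, rfl⟩
  obtain ⟨D, hD⟩ := exists_nat_ge (b * W + 1)
  have hDpos : 0 < D := by
    have : (0 : ℝ) < D := lt_of_lt_of_le (by positivity) hD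
    exact_mod_cast this
  obtain ⟨q, hq⟩ : ∃ q : ℕ, q = 2 * ((t + 1) * D ^ (t + 1)) := ⟨_, rfl⟩
  have hqpos : 0 < q := by rw [hq]; positivity
  have i1 : Nonempty (Fin q) := ⟨⟨0, hqpos⟩⟩
  have i2 : Nonempty {Y : Finset (Fin q) // Fintype.card (Fin q) ≤ 2 * Y.card} :=
    ⟨⟨univ, by rw [card_univ]; omega⟩⟩
  obtain ⟨N, hN⟩ : ∃ N : ℕ, N = Fintype.card
    {Y : Finset (Fin q) // Fintype.card (Fin q) ≤ 2 * Y.card} * ((s + 1 + 1) * E) := ⟨_, rfl⟩
  obtain ⟨R, hR⟩ : ∃ R : ℕ, R = (s + 1) * N := ⟨_, rfl⟩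
  obtain ⟨K0, hK0⟩ : ∃ K0 : ℕ, K0 = q ^ E * (2 * R + 1) ^ N := ⟨_, rfl⟩
  have hK0pos : 0 < K0 := by rw [hK0]; positivity
  obtain ⟨N0, hN0⟩ := exists_nat_gt (Real.exp (b * Real.log K0))
  obtain ⟨p, hp, hNp, v, hv⟩ := hprime (t + 1) D q N0
  have i3 : Fact p.Prime := ⟨hp⟩
  have i4 : NeZero p := ⟨hp.ne_zero⟩
  obtain ⟨H, φ, hH1, hH2⟩ := hconc t D q (ZMod p) v hv hq.ge
  obtain ⟨L⟩ := habs ((Fin (t + 1) → Fin D) → ZMod p) (Fin (t + 1) → (Fin t → Fin D) → ZMod p)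
    (Fin q) (Fin (t + 1)) s H φ (by simp [ht]) hH1 hH2
  refine fin8_mid hgeo hcode a b ha hb _ _ _ _ (s + 1) E N R L (Nat.succ_pos s)
    (by push_cast; linarith) hE hN hR ?_
  have hcV : Fintype.card (Fin (t + 1) → (Fin t → Fin D) → ZMod p) = p ^ (D ^ t * (t + 1)) := by
    simp only [Fintype.card_fun, Fintype.card_fin, ZMod.card]
    rw [← pow_mul]
  have hcG : Fintype.card ((Fin (t + 1) → Fin D) → ZMod p) = p ^ (D ^ t * D) := by
    simp only [Fintype.card_fun, Fintype.card_fin, ZMod.card]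
    rw [pow_succ]
  rw [hcV, hcG, Fintype.card_fin, ← hK0, ← pow_mul]
  have hexp : D ^ t * (t + 1) * (E * E * (s + 1 + 1)) = W * D ^ t := by rw [hW]; ring
  rw [hexp]
  refine fin8_num b hb K0 W D (D ^ t) p hK0pos hD (by positivity) ?_
  exact lt_of_lt_of_le hN0 (by exact_mod_cast hNp)

end Crest.Agent.DU
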