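import Crest.Agent.DU.Defs

set_option autoImplicit false
open Pointwise Crest.AnalysisR Finset

namespace Crest.Agent.DU

theorem count_ineq (b : ℝ) (hb : 1 ≤ b) (p g c D t : ℕ) (hp : 2 ≤ p) (hg0 : 0 < g) (hg : g ≤ p)
    (hD : b * (1 + c) < D) :
    b * Real.log ((g * p ^ (c * D ^ t) : ℕ) : ℝ) < Real.log ((p ^ (D ^ (t + 1)) : ℕ) : ℝ) := by
  have hp1 : (1 : ℝ) < p := by exact_mod_cast hp
  have hlp : 0 < Real.log p := Real.log_pos hp1
  have hg0' : (0 : ℝ) < g := by exact_mod_cast hg0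
  have hlg : Real.log g ≤ Real.log p := Real.log_le_log hg0' (by exact_mod_cast hg)
  have hc0 : (0 : ℝ) ≤ c := Nat.cast_nonneg c
  have hD0 : (1 : ℝ) ≤ D := by
    have : (0 : ℝ) < D := by nlinarith
    have : 0 < D := by exact_mod_cast this
    exact_mod_cast this
  have hDt : (1 : ℝ) ≤ (D : ℝ) ^ t := one_le_pow₀ hD0
  push_cast
  rw [Real.log_mul hg0'.ne' (by positivity), Real.log_pow, Real.log_pow]
  push_cast
  have h1 : Real.log g + c * (D : ℝ) ^ t * Real.log p ≤ (1 + c) * ((D : ℝ) ^ t * Real.log p) := by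
    nlinarith
  have h2 : 0 < (D : ℝ) ^ t * Real.log p := by positivity
  calc b * (Real.log g + c * (D : ℝ) ^ t * Real.log p)
      ≤ b * ((1 + c) * ((D : ℝ) ^ t * Real.log p)) := by
        apply mul_le_mul_of_nonneg_left h1; linarith
    _ = (b * (1 + c)) * ((D : ℝ) ^ t * Real.log p) := by ring
    _ < D * ((D : ℝ) ^ t * Real.log p) := mul_lt_mul_of_pos_right hD h2
    _ = (D : ℝ) ^ (t + 1) * Real.log p := by ring

set_option synthInstance.maxSize 4096 in
set_option synthInstance.maxHeartbeats 200000 in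
set_option linter.style.haveILetI false in
theorem final (hgeo : GeoStmt) (hcode : CodeStmt) (habs : AbsStmt) (hconc : ConcStmt)
    (hprime : PrimeStmt) (a b : ℝ) (ha : 1 ≤ a) (hb : 1 ≤ b) :
    ∃ n : ℕ, 0 < n ∧ ∃ K : Set (EuclideanSpace ℝ (Fin n)),
      Convex ℝ K ∧ IsCompact K ∧ (interior K).Nonempty ∧ (∀ x ∈ K, -x ∈ K) ∧
      ∃ t₁ : Finset (EuclideanSpace ℝ (Fin n)),
        polarSet {x : EuclideanSpace ℝ (Fin n) | ∀ i, |x i| ≤ 1} ⊆ ⋃ y ∈ t₁, (y +ᵥ a⁻¹ • polarSet K) ∧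
        ∀ t₂ : Finset (EuclideanSpace ℝ (Fin n)),
          K ⊆ ⋃ x ∈ t₂, (x +ᵥ {z : EuclideanSpace ℝ (Fin n) | ∀ i, |z i| ≤ 1}) →
          b * Real.log t₁.card < Real.log t₂.card := by
  classical
  obtain ⟨s, hs⟩ := exists_nat_ge (42 * a)
  obtain ⟨t, ht⟩ : ∃ t, 2 ^ s = t + 1 := ⟨2 ^ s - 1, by have := Nat.one_le_two_pow (n := s); omega⟩
  set m := s + 1 with hm
  set E := m * (m + 2) with hE
  have hm0 : 0 < m := by omega
  have hE0 : 0 < E := by positivity
  set c := (t + 1) * ((m + 1) * (E * E)) with hc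
  obtain ⟨D, hD⟩ := exists_nat_gt (b * (1 + c))
  set q := 2 * ((t + 1) * D ^ (t + 1)) + 1 with hq
  haveI : Nonempty (Fin q) := ⟨⟨0, by omega⟩⟩
  let A := {Y : Finset (Fin q) // Fintype.card (Fin q) ≤ 2 * Y.card}
  haveI : Nonempty A := ⟨⟨univ, by simp only [Finset.card_univ]; omega⟩⟩
  set T := Fintype.card (A × Fin (m + 1) × Fin E) with hT
  haveI : Nonempty (Fin E) := ⟨⟨0, hE0⟩⟩
  have hT0 : 0 < T := Fintype.card_pos
  set R := m * T with hR
  have hR0 : 0 < R := by positivity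
  set g := q ^ E * (2 * R + 1) ^ T with hg
  have hg0 : 0 < g := by positivity
  obtain ⟨p, hp, hgp, v, hv⟩ := hprime (t + 1) D q g
  haveI : Fact p.Prime := ⟨hp⟩
  obtain ⟨H, φ, hφ, hsep⟩ := hconc t D q (ZMod p) v hv (by omega)
  obtain ⟨L⟩ := habs _ _ (Fin q) (Fin (t + 1)) s H φ (by simp [ht]) hφ hsep
  obtain ⟨code, hcd⟩ := hcode _ A (Fin q) _ m E R L hE0 hR0
  have hmR : (0 : ℝ) < m := by exact_mod_cast hm0
  refine hgeo a b ha hb ((Fin (t + 1) → Fin D) → ZMod p) (A × ((Fin (t + 1) → Fin D) → ZMod p)) _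
    (fun P c => (L.l c.1 (P - c.2) : ℝ) / m) code ?_ ?_ ?_
  · intro P P' hne
    obtain ⟨α, hα⟩ := L.sep (P - P') (sub_ne_zero.mpr hne)
    refine ⟨(α, P'), ?_⟩
    have hY : (L.Y α).Nonempty := by
      have h1 := L.big α
      have h2 : 0 < Fintype.card (Fin q) := Fintype.card_pos
      exact Finset.card_pos.mp (by omega)
    obtain ⟨w, hw⟩ := hY
    have h0 : L.l α (P' - P') = 0 := L.ker α w _ hw (by simp)
    simp only [hα, h0]
    rw [div_self hmR.ne']
    simp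
  · intro y y' hy hy' hc' P
    have h := hcd y y' hy hy' hc' P
    have e1 : ∑ c, (y c - y' c) * ((L.l c.1 (P - c.2) : ℝ) / m)
        = (∑ c, (y c - y' c) * (L.l c.1 (P - c.2) : ℝ)) / m := by
      rw [Finset.sum_div]; exact Finset.sum_congr rfl fun c _ => by ring
    have hTR : (0 : ℝ) < T := by exact_mod_cast hT0
    have e2 : (m : ℝ) * (m + 2) / E = 1 := by
      rw [hE]; push_cast; field_simp
    have e3 : (m : ℝ) * (T : ℝ) / R = 1 := by
      rw [hR]; push_cast; field_simp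
    rw [← hT, e2, e3] at h
    rw [e1, abs_div, abs_of_pos hmR, div_le_div_iff₀ hmR (by linarith)]
    have hm' : (42 : ℝ) * a ≤ m := by rw [hm]; push_cast; linarith
    nlinarith [abs_nonneg (∑ c, (y c - y' c) * (L.l c.1 (P - c.2) : ℝ))]
  · have e1 : Fintype.card ((Fin E → Fin q) ×
        (Fin (m + 1) → Fin E → Fin E → (Fin (t + 1) → (Fin t → Fin D) → ZMod p)) ×
        (A × Fin (m + 1) × Fin E → Fin (2 * R + 1))) = g * p ^ (c * D ^ t) := by
      rw [Fintype.card_prod, Fintype.card_prod]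
      simp only [Fintype.card_fun, Fintype.card_fin, ZMod.card, ← hT]
      rw [hg, hc, ← pow_mul, ← pow_mul, ← pow_mul, ← pow_mul]
      ring
    have e2 : Fintype.card ((Fin (t + 1) → Fin D) → ZMod p) = p ^ (D ^ (t + 1)) := by
      simp only [Fintype.card_fun, Fintype.card_fin, ZMod.card]
    have := count_ineq b hb p g c D t hp.two_le hg0 hgp hD
    rw [← e1, ← e2] at this
    convert this

end Crest.Agent.DU
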