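import Crest.Agent.DU.Defs

set_option autoImplicit false
open Pointwise Crest.AnalysisR Finset

namespace Crest.Agent.DU

theorem geo_inner {n : ℕ} (x y : EuclideanSpace ℝ (Fin n)) :
    inner ℝ x y = ∑ i, y i * x i := by
  simp [PiLp.inner_apply]

theorem geo_l1 {n : ℕ} (y : EuclideanSpace ℝ (Fin n))
    (hy : y ∈ polarSet {x : EuclideanSpace ℝ (Fin n) | ∀ i, |x i| ≤ 1}) : ∑ i, |y i| ≤ 1 := by
  have h := hy (WithLp.toLp 2 (fun i => if 0 ≤ y i then (1 : ℝ) else -1)) (by
    intro i
    show |if 0 ≤ y i then (1 : ℝ) else -1| ≤ 1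
    split_ifs <;> simp)
  rw [geo_inner] at h
  refine le_trans (le_of_eq ?_) h
  refine Finset.sum_congr rfl fun i _ => ?_
  show |y i| = y i * (if 0 ≤ y i then (1 : ℝ) else -1)
  split_ifs with h0
  · rw [abs_of_nonneg h0, mul_one]
  · rw [abs_of_neg (lt_of_not_ge h0)]; ring

theorem geo_norm_le {n : ℕ} (y : EuclideanSpace ℝ (Fin n)) : ‖y‖ ≤ ∑ i, |y i| := by
  rw [EuclideanSpace.norm_eq]
  have h0 : 0 ≤ ∑ i, |y i| := Finset.sum_nonneg fun i _ => abs_nonneg _
  rw [Real.sqrt_le_iff]
  refine ⟨h0, ?_⟩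
  simp only [Real.norm_eq_abs]
  exact Finset.sum_sq_le_sq_sum_of_nonneg fun i _ => abs_nonneg _

theorem geo : GeoStmt := by
  intro a b ha hb G C D _ _ _ _ f code hsep hcode hlog
  classical
  have ha0 : 0 < a := lt_of_lt_of_le one_pos ha
  have hn0 : 0 < Fintype.card C := Fintype.card_pos
  let e : Fin (Fintype.card C) ≃ C := (Fintype.equivFin C).symm
  let r : G → EuclideanSpace ℝ (Fin (Fintype.card C)) :=
    fun P => WithLp.toLp 2 (fun i => 3 * f P (e i))
  let S : Set (EuclideanSpace ℝ (Fin (Fintype.card C))) :=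
    {0} ∪ (Set.range r ∪ Set.range (fun P => - r P))
  have hSfin : S.Finite :=
    (Set.finite_singleton _).union ((Set.finite_range _).union (Set.finite_range _))
  have hSneg : ∀ x ∈ S, -x ∈ S := by
    rintro x (hx | ⟨P, rfl⟩ | ⟨P, rfl⟩)
    · left; simp only [Set.mem_singleton_iff] at hx ⊢; rw [hx, neg_zero]
    · right; right; exact ⟨P, rfl⟩
    · right; left; exact ⟨P, by simp⟩
  have hHneg : ∀ x ∈ convexHull ℝ S, -x ∈ convexHull ℝ S := by
    intro x hx
    have h1 : -x ∈ -convexHull ℝ S := by simpa using hx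
    rw [← convexHull_neg] at h1
    refine convexHull_mono ?_ h1
    intro z hz
    have := hSneg (-z) (by simpa using hz)
    simpa using this
  have hρ : 0 < 1 / (4 * a) := by positivity
  let K : Set (EuclideanSpace ℝ (Fin (Fintype.card C))) :=
    convexHull ℝ S + Metric.closedBall 0 (1 / (4 * a))
  have h0H : (0 : EuclideanSpace ℝ (Fin (Fintype.card C))) ∈ convexHull ℝ S :=
    subset_convexHull ℝ S (Or.inl rfl)
  let rep : D → EuclideanSpace ℝ (Fin (Fintype.card C)) := fun d =>
    if h : ∃ y : EuclideanSpace ℝ (Fin (Fintype.card C)),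
      ∑ i, |y i| ≤ 1 ∧ code (fun c => y (e.symm c)) = d then h.choose else 0
  refine ⟨Fintype.card C, hn0, K, ?_, ?_, ?_, ?_, univ.image rep, ?_, ?_⟩
  · exact (convex_convexHull ℝ S).add (convex_closedBall _ _)
  · exact (hSfin.isCompact_convexHull ℝ).add (isCompact_closedBall _ _)
  · refine ⟨0, ?_⟩
    rw [mem_interior_iff_mem_nhds]
    refine Filter.mem_of_superset (Metric.closedBall_mem_nhds 0 hρ) ?_
    intro z hz
    exact ⟨0, h0H, z, hz, zero_add z⟩
  · rintro x ⟨u, hu, v, hv, rfl⟩
    refine ⟨-u, hHneg u hu, -v, ?_, ?_⟩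
    · simpa using hv
    · show -u + -v = -(u + v)
      abel
  · intro y hy
    have hy1 := geo_l1 y hy
    have hex : ∃ y' : EuclideanSpace ℝ (Fin (Fintype.card C)),
      ∑ i, |y' i| ≤ 1 ∧ code (fun c => y' (e.symm c)) = code (fun c => y (e.symm c)) :=
      ⟨y, hy1, rfl⟩
    have hrep : rep (code (fun c => y (e.symm c))) = hex.choose := dif_pos hex
    obtain ⟨h1, h2⟩ := hex.choose_spec
    set y0 := hex.choose with hy0
    simp only [Set.mem_iUnion]
    refine ⟨y0, Finset.mem_image.2 ⟨_, Finset.mem_univ _, hrep⟩, ?_⟩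
    refine ⟨a⁻¹ • (a • (y - y0)), ⟨a • (y - y0), ?_, rfl⟩, ?_⟩
    · rintro x ⟨u, hu, v, hv, rfl⟩
      have hs1 : ∑ c, |y (e.symm c)| ≤ 1 := by
        rw [Equiv.sum_comp e.symm (fun i => |y i|)]; exact hy1
      have hs2 : ∑ c, |y0 (e.symm c)| ≤ 1 := by
        rw [Equiv.sum_comp e.symm (fun i => |y0 i|)]; exact h1
      have hP : ∀ P, |inner ℝ (r P) (a • (y - y0))| ≤ 1 / 2 := by
        intro P
        have h3 := hcode _ _ hs1 hs2 h2.symm P
        have h4 : inner ℝ (r P) (a • (y - y0)) =
            3 * a * ∑ c, (y (e.symm c) - y0 (e.symm c)) * f P c := by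
          rw [geo_inner, Finset.mul_sum, ← Equiv.sum_comp e]
          refine Finset.sum_congr rfl fun i _ => ?_
          simp only [Equiv.symm_apply_apply]
          show a * (y i - y0 i) * (3 * f P (e i)) = _
          ring
        rw [h4, abs_mul, abs_of_pos (by positivity : 0 < 3 * a)]
        calc 3 * a * |∑ c, (y (e.symm c) - y0 (e.symm c)) * f P c|
            ≤ 3 * a * (1 / (6 * a)) := by gcongr
          _ = 1 / 2 := by field_simp; ring
      have hu' : inner ℝ u (a • (y - y0)) ≤ 1 / 2 := by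
        have hconv : Convex ℝ {z : EuclideanSpace ℝ (Fin (Fintype.card C)) |
            inner ℝ z (a • (y - y0)) ≤ 1 / 2} := by
          intro z hz z' hz' s t hs ht hst
          simp only [Set.mem_ofPred_eq] at hz hz' ⊢
          rw [inner_add_left, real_inner_smul_left, real_inner_smul_left]
          nlinarith
        refine convexHull_min ?_ hconv hu
        rintro z (hz | ⟨P, rfl⟩ | ⟨P, rfl⟩)
        · simp only [Set.mem_singleton_iff] at hz
          simp [hz]
        · exact le_trans (le_abs_self _) (hP P)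
        · show inner ℝ (- r P) (a • (y - y0)) ≤ 1 / 2
          rw [inner_neg_left]
          exact le_trans (neg_le_abs _) (hP P)
      have hv' : inner ℝ v (a • (y - y0)) ≤ 1 / 2 := by
        have hvn : ‖v‖ ≤ 1 / (4 * a) := by simpa using hv
        have hyn : ‖y - y0‖ ≤ 2 := by
          calc ‖y - y0‖ ≤ ‖y‖ + ‖y0‖ := norm_sub_le _ _
            _ ≤ 1 + 1 := add_le_add ((geo_norm_le y).trans hy1) ((geo_norm_le y0).trans h1)
            _ = 2 := by norm_num
        calc inner ℝ v (a • (y - y0)) ≤ ‖v‖ * ‖a • (y - y0)‖ := real_inner_le_norm _ _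
          _ = ‖v‖ * (a * ‖y - y0‖) := by rw [norm_smul, Real.norm_eq_abs, abs_of_pos ha0]
          _ ≤ 1 / (4 * a) * (a * 2) := by gcongr
          _ = 1 / 2 := by field_simp; ring
      show inner ℝ (u + v) (a • (y - y0)) ≤ 1
      rw [inner_add_left]
      linarith
    · show y0 + a⁻¹ • (a • (y - y0)) = y
      rw [smul_smul, inv_mul_cancel₀ ha0.ne', one_smul]
      abel
  · intro t₂ ht₂
    have hmem : ∀ P, ∃ x ∈ t₂, ∀ i, |r P i - x i| ≤ 1 := by
      intro P
      have hK : r P ∈ K :=
        ⟨r P, subset_convexHull ℝ S (Or.inr (Or.inl ⟨P, rfl⟩)), 0,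
          Metric.mem_closedBall_self hρ.le, add_zero _⟩
      have := ht₂ hK
      simp only [Set.mem_iUnion] at this
      obtain ⟨x, hx, z, hz, hxz⟩ := this
      refine ⟨x, hx, fun i => ?_⟩
      have h5 : x + z = r P := hxz
      rw [← h5]
      have := hz i
      simpa using this
    choose x hx hxr using hmem
    have hinj : Function.Injective x := by
      intro P P' hPP
      by_contra hne
      obtain ⟨c, hc⟩ := hsep P P' hne
      have h6 := hxr P (e.symm c)
      have h7 := hxr P' (e.symm c)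
      rw [hPP] at h6
      have h8 : r P (e.symm c) = 3 * f P c := by
        show 3 * f P (e (e.symm c)) = _
        rw [Equiv.apply_symm_apply]
      have h9 : r P' (e.symm c) = 3 * f P' c := by
        show 3 * f P' (e (e.symm c)) = _
        rw [Equiv.apply_symm_apply]
      rw [h8] at h6
      rw [h9] at h7
      rw [abs_le] at h6 h7
      rcases le_abs.1 hc with h | h <;> linarith [h6.1, h6.2, h7.1, h7.2]
    have hcard : Fintype.card G ≤ t₂.card :=
      le_trans (le_of_eq Finset.card_univ.symm)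
        (Finset.card_le_card_of_injOn x (fun P _ => hx P) (hinj.injOn))
    have hD : 0 ≤ Real.log (Fintype.card D) := Real.log_natCast_nonneg _
    have hG : 0 < Fintype.card G := by
      by_contra h
      have h0 : Fintype.card G = 0 := by omega
      rw [h0] at hlog
      simp only [Nat.cast_zero, Real.log_zero] at hlog
      nlinarith
    have ht1 : (univ.image rep).card ≤ Fintype.card D :=
      le_trans Finset.card_image_le (le_of_eq Finset.card_univ)
    have ht1pos : 0 < (univ.image rep).card :=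
      Finset.card_pos.2 ⟨rep (code 0), Finset.mem_image.2 ⟨_, Finset.mem_univ _, rfl⟩⟩
    calc b * Real.log ((univ.image rep).card) ≤ b * Real.log (Fintype.card D) := by
          refine mul_le_mul_of_nonneg_left ?_ (by linarith)
          exact Real.log_le_log (by exact_mod_cast ht1pos) (by exact_mod_cast ht1)
      _ < Real.log (Fintype.card G) := hlog
      _ ≤ Real.log t₂.card :=
          Real.log_le_log (by exact_mod_cast hG) (by exact_mod_cast hcard)

end Crest.Agent.DU
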