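import Mathlib
import Crest.Agent.DU.Defs

/-! Job GEO (backup). -/

set_option autoImplicit false
open Pointwise Crest.AnalysisR Finset

namespace Crest.Agent.DU

namespace Geo7

theorem norm_le_l1 {n : ℕ} (v : EuclideanSpace ℝ (Fin n)) : ‖v‖ ≤ ∑ i, |v i| := by
  rw [EuclideanSpace.norm_eq]
  apply Real.sqrt_le_iff.2
  refine ⟨sum_nonneg fun i _ => abs_nonneg _, ?_⟩
  simp only [Real.norm_eq_abs]
  exact sum_sq_le_sq_sum_of_nonneg fun i _ => abs_nonneg _

theorem inner_eq {n : ℕ} (x y : EuclideanSpace ℝ (Fin n)) : inner ℝ x y = ∑ i, y i * x i := by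
  simp [PiLp.inner_apply]

theorem polar_cube {n : ℕ} (y : EuclideanSpace ℝ (Fin n))
    (hy : y ∈ polarSet {x : EuclideanSpace ℝ (Fin n) | ∀ i, |x i| ≤ 1}) : ∑ i, |y i| ≤ 1 := by
  have h := hy (WithLp.toLp 2 fun i => if 0 ≤ y i then 1 else -1) (by
    intro i
    simp only
    split_ifs <;> simp)
  rw [inner_eq] at h
  refine le_trans (le_of_eq (sum_congr rfl fun i _ => ?_)) h
  simp only
  split_ifs with hi
  · rw [abs_of_nonneg hi, mul_one]
  · rw [abs_of_neg (not_le.1 hi)]; ring

end Geo7

open Geo7 in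
theorem geo7 : GeoStmt := by
  classical
  intro a b ha hb G C D _ _ _ _ f code hsep hcode hlog
  have ha0 : 0 < a := by linarith
  set n := Fintype.card C with hn
  let e : Fin n ≃ C := (Fintype.equivFin C).symm
  let r : G → EuclideanSpace ℝ (Fin n) := fun P => WithLp.toLp 2 fun i => 3 * f P (e i)
  let S : Set (EuclideanSpace ℝ (Fin n)) := insert 0 (Set.range r ∪ Set.range fun P => -r P)
  have hSfin : S.Finite := ((Set.finite_range _).union (Set.finite_range _)).insert 0
  have hSneg : ∀ x ∈ S, -x ∈ S := by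
    intro x hx
    rcases hx with rfl | ⟨P, rfl⟩ | ⟨P, rfl⟩
    · left; simp
    · right; right; exact ⟨P, rfl⟩
    · right; left; exact ⟨P, by simp⟩
  have hHneg : ∀ x ∈ convexHull ℝ S, -x ∈ convexHull ℝ S := by
    intro x hx
    have h1 : convexHull ℝ S ⊆ (fun x => -x) ⁻¹' convexHull ℝ S := by
      apply convexHull_min
      · intro x hx; exact subset_convexHull ℝ S (hSneg x hx)
      · intro u hu v hv s t hs ht hst
        have := convex_convexHull ℝ S hu hv hs ht hst
        simp only [Set.mem_preimage] at this ⊢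
        rw [neg_add, ← smul_neg, ← smul_neg]
        exact this
    exact h1 hx
  have h0 : (0 : EuclideanSpace ℝ (Fin n)) ∈ convexHull ℝ S :=
    subset_convexHull ℝ S (Set.mem_insert _ _)
  have hρ : 0 < 1 / (4 * a) := by positivity
  let K : Set (EuclideanSpace ℝ (Fin n)) :=
    convexHull ℝ S + Metric.closedBall 0 (1 / (4 * a))
  -- representatives
  let cd : EuclideanSpace ℝ (Fin n) → D := fun y => code fun c => y (e.symm c)
  let rep : D → EuclideanSpace ℝ (Fin n) := fun d =>
    if h : ∃ y : EuclideanSpace ℝ (Fin n), ∑ i, |y i| ≤ 1 ∧ cd y = d then h.choose else 0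
  have hrep : ∀ y : EuclideanSpace ℝ (Fin n), ∑ i, |y i| ≤ 1 →
      ∑ i, |rep (cd y) i| ≤ 1 ∧ cd (rep (cd y)) = cd y := by
    intro y hy
    have h : ∃ y' : EuclideanSpace ℝ (Fin n), ∑ i, |y' i| ≤ 1 ∧ cd y' = cd y := ⟨y, hy, rfl⟩
    simp only [rep, dif_pos h]
    exact h.choose_spec
  have hsum : ∀ g : C → ℝ, ∑ c, g c = ∑ i, g (e i) := fun g => (Equiv.sum_comp e g).symm
  refine ⟨n, Fintype.card_pos, K, (convex_convexHull ℝ S).add (convex_closedBall _ _),
    (hSfin.isCompact_convexHull ℝ).add (isCompact_closedBall _ _), ?_, ?_, univ.image rep, ?_, ?_⟩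
  · refine ⟨0, mem_interior_iff_mem_nhds.2 ?_⟩
    refine Filter.mem_of_superset (Metric.closedBall_mem_nhds 0 hρ) fun x hx => ?_
    exact ⟨0, h0, x, hx, zero_add x⟩
  · rintro x ⟨u, hu, v, hv, rfl⟩
    refine ⟨-u, hHneg u hu, -v, ?_, by simp only [neg_add]⟩
    simpa using hv
  · intro y hy
    have hy1 := polar_cube y hy
    obtain ⟨hy0, hcd⟩ := hrep y hy1
    set y0 := rep (cd y) with hy0def
    simp only [Set.mem_iUnion]
    refine ⟨y0, mem_image.2 ⟨cd y, mem_univ _, rfl⟩, ?_⟩
    refine ⟨a⁻¹ • (a • (y - y0)), Set.smul_mem_smul_set ?_, ?_⟩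
    · rintro x ⟨u, hu, v, hv, rfl⟩
      have key : ∀ P, |inner ℝ (r P) (a • (y - y0))| ≤ 1 / 2 := by
        intro P
        have h1 := hcode (fun c => y (e.symm c)) (fun c => y0 (e.symm c))
          (by rw [hsum]; simpa using hy1) (by rw [hsum]; simpa using hy0) hcd.symm P
        rw [hsum] at h1
        simp only [Equiv.symm_apply_apply] at h1
        have h2 : inner ℝ (r P) (a • (y - y0)) = 3 * a * ∑ i, (y i - y0 i) * f P (e i) := by
          rw [inner_eq, mul_sum]
          refine sum_congr rfl fun i _ => ?_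
          simp only [r, PiLp.smul_apply, PiLp.sub_apply, smul_eq_mul]
          ring
        rw [h2, abs_mul, abs_of_pos (by positivity : 0 < 3 * a)]
        calc 3 * a * |∑ i, (y i - y0 i) * f P (e i)| ≤ 3 * a * (1 / (6 * a)) :=
              mul_le_mul_of_nonneg_left h1 (by positivity)
          _ = 1 / 2 := by field_simp; ring
      have hu' : inner ℝ u (a • (y - y0)) ≤ 1 / 2 := by
        have h1 : convexHull ℝ S ⊆ {u | inner ℝ u (a • (y - y0)) ≤ 1 / 2} := by
          apply convexHull_min
          · intro x hx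
            rcases hx with rfl | ⟨P, rfl⟩ | ⟨P, rfl⟩
            · simp
            · exact (le_abs_self _).trans (key P)
            · simp only [Set.mem_setOf_eq, inner_neg_left]
              exact (neg_le_abs _).trans (key P)
          · intro u hu v hv s t hs ht hst
            simp only [Set.mem_setOf_eq] at hu hv ⊢
            rw [inner_add_left, real_inner_smul_left, real_inner_smul_left]
            nlinarith [mul_le_mul_of_nonneg_left hu hs, mul_le_mul_of_nonneg_left hv ht]
        exact h1 hu
      have hv' : inner ℝ v (a • (y - y0)) ≤ 1 / 2 := by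
        have h1 : ‖v‖ ≤ 1 / (4 * a) := by simpa using hv
        have h2 : ‖y - y0‖ ≤ 2 := by
          have := norm_sub_le y y0
          linarith [norm_le_l1 y, norm_le_l1 y0]
        calc inner ℝ v (a • (y - y0)) ≤ ‖v‖ * ‖a • (y - y0)‖ := real_inner_le_norm _ _
          _ = ‖v‖ * (a * ‖y - y0‖) := by rw [norm_smul, Real.norm_eq_abs, abs_of_pos ha0]
          _ ≤ 1 / (4 * a) * (a * 2) := by gcongr
          _ = 1 / 2 := by field_simp; ring
      simp only
      rw [inner_add_left]
      linarith
    · simp only [vadd_eq_add]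
      rw [smul_smul, inv_mul_cancel₀ ha0.ne', one_smul]
      abel
  · intro t₂ ht₂
    have hmem : ∀ P, ∃ x ∈ t₂, ∀ i, |r P i - x i| ≤ 1 := by
      intro P
      have h1 : r P ∈ K :=
        ⟨r P, subset_convexHull ℝ S (Or.inr (Or.inl ⟨P, rfl⟩)), 0,
          Metric.mem_closedBall_self hρ.le, add_zero _⟩
      have h2 := ht₂ h1
      simp only [Set.mem_iUnion] at h2
      obtain ⟨x, hx, z, hz, hzx⟩ := h2
      refine ⟨x, hx, fun i => ?_⟩
      have : r P i - x i = z i := by
        rw [← hzx]; simp
      rw [this]; exact hz i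
    choose g hg hgi using hmem
    have hinj : Function.Injective g := by
      intro P P' hPP
      by_contra hne
      obtain ⟨c, hc⟩ := hsep P P' hne
      have h1 := hgi P (e.symm c)
      have h2 := hgi P' (e.symm c)
      rw [hPP] at h1
      simp only [r, Equiv.apply_symm_apply] at h1 h2
      rw [abs_le] at h1 h2
      rcases le_abs.1 hc with h | h <;> linarith [h1.1, h1.2, h2.1, h2.2]
    have hG : Fintype.card G ≤ t₂.card := by
      rw [← card_univ]
      exact card_le_card_of_injOn g (fun P _ => hg P) (hinj.injOn)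
    have hD : (univ.image rep).card ≤ Fintype.card D := by
      rw [← card_univ]; exact card_image_le
    have hlogmono : ∀ u v : ℕ, u ≤ v → Real.log u ≤ Real.log v := by
      intro u v huv
      rcases Nat.eq_zero_or_pos u with rfl | hu
      · simp only [Nat.cast_zero, Real.log_zero]; exact Real.log_natCast_nonneg v
      · exact Real.log_le_log (by exact_mod_cast hu) (by exact_mod_cast huv)
    calc b * Real.log ((univ.image rep).card) ≤ b * Real.log (Fintype.card D) :=
          mul_le_mul_of_nonneg_left (hlogmono _ _ hD) (by linarith)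
      _ < Real.log (Fintype.card G) := hlog
      _ ≤ Real.log t₂.card := hlogmono _ _ hG

end Crest.Agent.DU
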