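import Crest.Agent.DU.Defs

set_option autoImplicit false
open Pointwise Crest.AnalysisR Finset

namespace Crest.Agent.DU

namespace G9

theorem inner_eq {n : ℕ} (x y : EuclideanSpace ℝ (Fin n)) : inner ℝ x y = ∑ i, x i * y i := by
  simp [PiLp.inner_apply, mul_comm]

theorem norm_le_sum {n : ℕ} (x : EuclideanSpace ℝ (Fin n)) : ‖x‖ ≤ ∑ i, |x i| := by
  rw [EuclideanSpace.norm_eq]
  refine Real.sqrt_le_iff.2 ⟨by positivity, ?_⟩
  simp only [Real.norm_eq_abs]
  exact Finset.sum_sq_le_sq_sum_of_nonneg fun i _ => abs_nonneg _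

end G9

open G9 in
theorem geo9 : GeoStmt := by
  classical
  intro a b ha hb G C D _ _ _ _ f code hsep hcode hlog
  set n := Fintype.card C with hn
  have e : Fin n ≃ C := (Fintype.equivFin C).symm
  have ha0 : 0 < a := by linarith
  set r : G → EuclideanSpace ℝ (Fin n) := fun P => WithLp.toLp 2 fun i => 3 * f P (e i) with hr
  set S : Set (EuclideanSpace ℝ (Fin n)) := {0} ∪ (Set.range r ∪ Set.range fun P => -r P) with hS
  have hSf : S.Finite :=
    (Set.finite_singleton _).union ((Set.finite_range _).union (Set.finite_range _))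
  have h0 : (0 : EuclideanSpace ℝ (Fin n)) ∈ convexHull ℝ S :=
    subset_convexHull ℝ S (Or.inl rfl)
  have hneg : ∀ x ∈ convexHull ℝ S, -x ∈ convexHull ℝ S := by
    intro x hx
    have h1 : convexHull ℝ S ⊆ -convexHull ℝ S := by
      refine convexHull_min (fun z hz => ?_) (convex_convexHull ℝ S).neg
      rw [Set.mem_neg]
      refine subset_convexHull ℝ S ?_
      rcases hz with hz | ⟨P, rfl⟩ | ⟨P, rfl⟩
      · left; rw [Set.mem_singleton_iff.1 hz]; simp
      · right; right; exact ⟨P, rfl⟩
      · right; left; exact ⟨P, by simp⟩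
    exact Set.mem_neg.1 (h1 hx)
  have hρ : 0 < 1 / (4 * a) := by positivity
  set K : Set (EuclideanSpace ℝ (Fin n)) :=
    convexHull ℝ S + Metric.closedBall 0 (1 / (4 * a)) with hK
  have hrep : ∀ d : D, ∃ y0 : C → ℝ, ∀ y : C → ℝ, ∑ c, |y c| ≤ 1 → code y = d →
      ∑ c, |y0 c| ≤ 1 ∧ code y0 = d := by
    intro d
    by_cases h : ∃ y : C → ℝ, ∑ c, |y c| ≤ 1 ∧ code y = d
    · obtain ⟨y, hy⟩ := h
      exact ⟨y, fun _ _ _ => hy⟩
    · exact ⟨0, fun y h1 h2 => absurd ⟨y, h1, h2⟩ h⟩
  choose rep hrep using hrep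
  set t₁ : Finset (EuclideanSpace ℝ (Fin n)) :=
    univ.image fun d : D => (WithLp.toLp 2 fun i => rep d (e i) : EuclideanSpace ℝ (Fin n)) with ht
  refine ⟨n, Fintype.card_pos, K, (convex_convexHull ℝ S).add (convex_closedBall _ _),
    (hSf.isCompact_convexHull ℝ).add (isCompact_closedBall _ _), ⟨0, ?_⟩, ?_, t₁, ?_, ?_⟩
  · refine mem_interior.2 ⟨Metric.ball 0 (1 / (4 * a)), fun z hz => ?_, Metric.isOpen_ball,
      Metric.mem_ball_self hρ⟩
    exact ⟨0, h0, z, Metric.ball_subset_closedBall hz, zero_add z⟩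
  · rintro x ⟨x1, h1, x2, h2, rfl⟩
    exact ⟨-x1, hneg x1 h1, -x2, by simpa using h2, by simp [add_comm]⟩
  · intro y hy
    have hy1 : ∑ i, |y i| ≤ 1 := by
      have := hy (WithLp.toLp 2 fun i => if 0 ≤ y i then 1 else -1) (fun i => by
        simp only []
        split_ifs <;> simp)
      rw [inner_eq] at this
      refine le_trans (le_of_eq (Finset.sum_congr rfl fun i _ => ?_)) this
      simp only []
      split_ifs with h
      · rw [abs_of_nonneg h, one_mul]
      · rw [abs_of_neg (not_le.1 h)]; ring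
    set y' : C → ℝ := fun c => y (e.symm c) with hy'
    have hy2 : ∑ c, |y' c| ≤ 1 := by
      rw [← e.sum_comp]
      simpa [hy'] using hy1
    obtain ⟨k1, k2⟩ := hrep (code y') y' hy2 rfl
    set y0 : EuclideanSpace ℝ (Fin n) := WithLp.toLp 2 fun i => rep (code y') (e i) with hy0
    have hy3 : ∑ i, |y0 i| ≤ 1 := by
      rw [← e.sum_comp] at k1
      exact k1
    simp only [Set.mem_iUnion]
    refine ⟨y0, Finset.mem_image.2 ⟨code y', mem_univ _, rfl⟩, ?_⟩
    refine ⟨y - y0, ⟨a • (y - y0), ?_, ?_⟩, by simp⟩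
    swap
    · simp only []
      rw [smul_smul, inv_mul_cancel₀ ha0.ne', one_smul]
    rintro x ⟨x1, h1, x2, h2, rfl⟩
    simp only []
    have hP : ∀ P, |inner ℝ (r P) (y - y0)| ≤ 1 / (2 * a) := by
      intro P
      have k := hcode y' (rep (code y')) hy2 k1 k2.symm P
      rw [← e.sum_comp] at k
      have : inner ℝ (r P) (y - y0) =
          3 * ∑ i, (y' (e i) - rep (code y') (e i)) * f P (e i) := by
        rw [inner_eq, Finset.mul_sum]
        refine Finset.sum_congr rfl fun i _ => ?_
        simp [hr, hy', hy0]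
        ring
      rw [this, abs_mul, abs_of_pos (by norm_num : (0 : ℝ) < 3)]
      have e2 : 1 / (2 * a) = 3 * (1 / (6 * a)) := by field_simp; norm_num
      rw [e2]
      linarith
    have hx1 : inner ℝ x1 (y - y0) ≤ 1 / (2 * a) := by
      have hc : Convex ℝ {x : EuclideanSpace ℝ (Fin n) | inner ℝ x (y - y0) ≤ 1 / (2 * a)} :=
        convex_halfSpace_le ⟨fun u v => inner_add_left _ _ _,
          fun c u => real_inner_smul_left _ _ _⟩ _
      refine convexHull_min (fun z hz => ?_) hc h1
      rcases hz with hz | ⟨P, rfl⟩ | ⟨P, rfl⟩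
      · rw [Set.mem_singleton_iff.1 hz]
        simp only [Set.mem_setOf_eq, inner_zero_left]
        positivity
      · exact (abs_le.1 (hP P)).2
      · simp only [Set.mem_setOf_eq, inner_neg_left]
        linarith [(abs_le.1 (hP P)).1]
    have hx2 : inner ℝ x2 (y - y0) ≤ 1 / (2 * a) := by
      have k3 : ‖x2‖ ≤ 1 / (4 * a) := by simpa using h2
      have k4 : ‖y - y0‖ ≤ 2 := by
        linarith [norm_sub_le y y0, norm_le_sum y, norm_le_sum y0]
      have e2 : 1 / (2 * a) = 1 / (4 * a) * 2 := by field_simp; norm_num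
      rw [e2]
      exact (real_inner_le_norm _ _).trans (mul_le_mul k3 k4 (norm_nonneg _) hρ.le)
    rw [real_inner_smul_right, inner_add_left]
    have e3 : a * (1 / (2 * a) + 1 / (2 * a)) = 1 := by field_simp; norm_num
    calc a * (inner ℝ x1 (y - y0) + inner ℝ x2 (y - y0))
        ≤ a * (1 / (2 * a) + 1 / (2 * a)) := by gcongr
      _ = 1 := e3
  · intro t₂ ht₂
    have hmem : ∀ P, ∃ x ∈ t₂, ∀ i, |r P i - x i| ≤ 1 := by
      intro P
      have : r P ∈ K := ⟨r P, subset_convexHull ℝ S (Or.inr (Or.inl ⟨P, rfl⟩)), 0,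
        Metric.mem_closedBall_self hρ.le, add_zero _⟩
      have := ht₂ this
      simp only [Set.mem_iUnion] at this
      obtain ⟨x, hx, z, hz, hxz⟩ := this
      refine ⟨x, hx, fun i => ?_⟩
      rw [← hxz]
      simpa using hz i
    choose g hg hg' using hmem
    have hinj : Function.Injective g := by
      intro P P' h
      by_contra hne
      obtain ⟨c, hc⟩ := hsep P P' hne
      have k1 := hg' P (e.symm c)
      have k2 := hg' P' (e.symm c)
      rw [h] at k1
      simp only [hr, Equiv.apply_symm_apply] at k1 k2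
      rw [abs_le] at k1 k2
      rcases le_abs.1 hc with h3 | h3 <;> linarith [k1.1, k1.2, k2.1, k2.2]
    have hG : Fintype.card G ≤ t₂.card := by
      rw [← Finset.card_univ]
      exact Finset.card_le_card_of_injOn g (fun P _ => hg P) hinj.injOn
    have hD : t₁.card ≤ Fintype.card D := by
      rw [← Finset.card_univ]
      exact Finset.card_image_le
    have mono : ∀ u v : ℕ, u ≤ v → Real.log u ≤ Real.log v := by
      intro u v huv
      rcases Nat.eq_zero_or_pos u with rfl | hu
      · simpa using Real.log_natCast_nonneg v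
      · exact Real.log_le_log (by exact_mod_cast hu) (by exact_mod_cast huv)
    have k1 := mono _ _ hG
    have k2 := mul_le_mul_of_nonneg_left (mono _ _ hD) (by linarith : 0 ≤ b)
    linarith

end Crest.Agent.DU
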