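import Mathlib
import Crest.Agent.DU.Defs

/-! Job GREEDY. -/

set_option autoImplicit false
open Finset

namespace Crest.Agent.DU

theorem greedy : GreedyStmt := by
  classical
  intro C X _ _ _ μ rel E hE hμ hsum
  have hE' : (0 : ℝ) < E := by exact_mod_cast hE
  let unc : Finset X → ℝ := fun T => ∑ c ∈ univ.filter (fun c => ∀ q ∈ T, ¬ rel q c), μ c
  let pot : Finset X → ℝ := fun T => unc T + (T.card : ℝ) / E
  obtain ⟨T, hT⟩ := Finite.exists_min pot
  have hunc0 : ∀ T, 0 ≤ unc T := fun T => sum_nonneg fun c _ => hμ c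
  have hcard : T.card ≤ E := by
    have h1 := hT ∅
    have h2 : unc ∅ ≤ 1 :=
      le_trans (sum_le_sum_of_subset_of_nonneg (filter_subset _ _) fun c _ _ => hμ c) hsum
    have h3 : (T.card : ℝ) / E ≤ 1 := by
      have := hunc0 T
      simp only [pot, card_empty, Nat.cast_zero, zero_div, add_zero] at h1
      linarith
    rw [div_le_one hE'] at h3
    exact_mod_cast h3
  have hstep : ∀ x, ∑ c ∈ univ.filter (fun c => (∀ q ∈ T, ¬ rel q c) ∧ rel x c), μ c
      ≤ 1 / (E : ℝ) := by
    intro x
    have h1 := hT (insert x T)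
    have h2 : ((insert x T).card : ℝ) ≤ T.card + 1 := by exact_mod_cast card_insert_le x T
    have h3 : ((insert x T).card : ℝ) / E ≤ (T.card : ℝ) / E + 1 / E := by
      rw [← add_div]; exact div_le_div_of_nonneg_right h2 hE'.le
    have h4 : unc T = ∑ c ∈ univ.filter (fun c => (∀ q ∈ T, ¬ rel q c) ∧ rel x c), μ c
        + unc (insert x T) := by
      simp only [unc, sum_filter]
      rw [← sum_add_distrib]
      refine sum_congr rfl fun c _ => ?_
      by_cases ha : ∀ q ∈ T, ¬ rel q c
      · by_cases hb : rel x c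
        · rw [if_pos ha, if_pos ⟨ha, hb⟩, if_neg, add_zero]
          intro h; exact h x (mem_insert_self x T) hb
        · rw [if_pos ha, if_neg (fun h => hb h.2), if_pos, zero_add]
          intro q hq
          rcases mem_insert.1 hq with rfl | hq
          · exact hb
          · exact ha q hq
      · rw [if_neg ha, if_neg (fun h => ha h.1), if_neg, add_zero]
        intro h; exact ha fun q hq => h q (mem_insert_of_mem hq)
    simp only [pot] at h1
    linarith
  obtain ⟨x0⟩ := (inferInstance : Nonempty X)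
  let Q : Fin E → X := fun i =>
    if h : (i : ℕ) < T.card then (T.equivFin.symm ⟨i, h⟩ : X) else x0
  have hQ : ∀ q ∈ T, ∃ i, Q i = q := by
    intro q hq
    let j := T.equivFin ⟨q, hq⟩
    refine ⟨⟨j, lt_of_lt_of_le j.2 hcard⟩, ?_⟩
    simp only [Q, j.2, dif_pos]
    simp [j]
  refine ⟨Q, fun x => le_trans ?_ (hstep x)⟩
  refine sum_le_sum_of_subset_of_nonneg ?_ fun c _ _ => hμ c
  intro c hc
  simp only [mem_filter, mem_univ, true_and] at hc ⊢
  refine ⟨fun q hq => ?_, hc.2⟩
  obtain ⟨i, rfl⟩ := hQ q hq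
  exact hc.1 i

end Crest.Agent.DU
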