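import Crest.Agent.DU.Defs

set_option autoImplicit false
open Finset

namespace Crest.Agent.DU

theorem primeStmt (hd : DetStmt) : PrimeStmt := by
  intro t D q N
  obtain ⟨v, hv⟩ := hd t D q
  set d : ((Fin t → Fin D) → Fin t → Fin q) → ℤ := fun x =>
    (Matrix.of fun l e : Fin t → Fin D => ∏ a, v a (x l a) (e a)).det with hdd
  obtain ⟨p, hpN, hp⟩ := Nat.exists_infinite_primes (N + 1 + ∑ x, (d x).natAbs)
  refine ⟨p, hp, by omega, fun a w i => (v a w i : ZMod p), fun x hx h0 => ?_⟩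
  have h1 : ((d x : ℤ) : ZMod p) = 0 := by
    rw [← h0]
    have := (Int.castRingHom (ZMod p)).map_det
      (Matrix.of fun l e : Fin t → Fin D => ∏ a, v a (x l a) (e a))
    simp only [eq_intCast] at this
    rw [hdd]
    simp only
    rw [this]
    congr 1
    ext l e
    simp
  rw [ZMod.intCast_zmod_eq_zero_iff_dvd] at h1
  have h2 : d x ≠ 0 := hv x hx
  have h3 : p ≤ (d x).natAbs :=
    Nat.le_of_dvd (Int.natAbs_pos.2 h2) (Int.natCast_dvd.1 h1)
  have h4 : (d x).natAbs ≤ ∑ x, (d x).natAbs :=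
    Finset.single_le_sum (f := fun x => (d x).natAbs) (fun _ _ => Nat.zero_le _) (mem_univ x)
  omega

end Crest.Agent.DU
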